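import Vale.Agent.P327.Vote

/-!
One program that computes a given map on a set of measure close to one.
-/

namespace P327

open MeasureTheory
open scoped symmDiff

/-- A finite case distinction on the prefix of length `s`. -/
def patch (s : ℕ) : List (List (List Bool) × OCode) → List Bool → ℕ →. ℕ
  | [] => fun _ _ => Part.none
  | (P, c) :: rest => fun l n =>
      bif decide (l.take s ∈ P) then c.run (listOr l) n else patch s rest l n

lemma patch_partrec (s : ℕ) : ∀ C, Partrec₂ (patch s C) := by
  intro C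
  induction C with
  | nil => exact Partrec.none
  | cons Pc rest ih =>
    obtain ⟨P, c⟩ := Pc
    refine (Partrec.cond ?_ (run_partrec c) ih).of_eq fun a => rfl
    refine (Primrec.of_eq (f := fun a : List Bool × ℕ => decide (@List.idxOf (List Bool) instBEqOfDecidableEq (a.1.take s) P < P.length)) ?_ fun a => ?_).to_comp
    · exact Primrec.nat_lt.decide.comp
        (Primrec.list_idxOf.comp (Primrec.list_take.comp (Primrec.const s) Primrec.fst)
          (Primrec.const P))
        (Primrec.const P.length)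
    · simp [List.idxOf_lt_length_iff]

lemma take_pre {Z : ℕ → Bool} {s L : ℕ} (h : s ≤ L) : (pre Z L).take s = pre Z s := by
  simp [pre, ← List.map_take, List.take_range, h]

lemma patch_mono {s : ℕ} {Z : ℕ → Bool} {L L' n v : ℕ} (hL : L ≤ L') :
    ∀ C, (∀ Pc ∈ C, ∀ l ∈ Pc.1, l.length = s) →
      v ∈ patch s C (pre Z L) n → v ∈ patch s C (pre Z L') n := by
  intro C
  induction C with
  | nil => intro _ h; simp [patch] at h
  | cons Pc rest ih =>
    obtain ⟨P, c⟩ := Pc
    intro hlen h
    rcases Nat.lt_or_ge L s with hLs | hLs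
    · have hnot : (pre Z L).take s ∉ P := fun hmem => by
        have := hlen _ List.mem_cons_self _ hmem
        simp [pre] at this
        omega
      simp only [patch, hnot, decide_false, cond_false] at h
      exfalso
      have hno : ∀ C', (∀ Pc ∈ C', ∀ l ∈ Pc.1, l.length = s) → v ∉ patch s C' (pre Z L) n := by
        intro C'
        induction C' with
        | nil => simp [patch]
        | cons Qd rest' ih' =>
          obtain ⟨Q, e⟩ := Qd
          intro hl
          have hnot' : (pre Z L).take s ∉ Q := fun hmem => by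
            have := hl _ List.mem_cons_self _ hmem
            simp [pre] at this
            omega
          simp only [patch, hnot', decide_false, cond_false]
          exact ih' fun Pc hPc => hl Pc (List.mem_cons_of_mem _ hPc)
      exact hno rest (fun Pc hPc => hlen Pc (List.mem_cons_of_mem _ hPc)) h
    · simp only [patch, take_pre hLs, take_pre (le_trans hLs hL)] at h ⊢
      by_cases hm : pre Z s ∈ P
      · simp only [hm, decide_true, cond_true] at h ⊢
        exact run_pre_mono hL h
      · simp only [hm, decide_false, cond_false] at h ⊢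
        exact ih (fun Pc hPc => hlen Pc (List.mem_cons_of_mem _ hPc)) h

lemma patch_eq {s : ℕ} {l : List Bool} {n : ℕ} {N : ℕ} {P : ℕ → List (List Bool)} {e : ℕ → OCode}
    {i : ℕ} (hiN : i < N) (hi : l.take s ∈ P i) (huniq : ∀ j < N, l.take s ∈ P j → j = i) :
    patch s ((List.range N).map fun j => (P j, e j)) l n = (e i).run (listOr l) n := by
  have h : ∀ J : List ℕ, i ∈ J → (∀ j ∈ J, j < N) →
      patch s (J.map fun j => (P j, e j)) l n = (e i).run (listOr l) n := by
    intro J
    induction J with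
    | nil => simp
    | cons j J ih =>
      intro hmem hlt
      by_cases hj : l.take s ∈ P j
      · obtain rfl := huniq j (hlt j List.mem_cons_self) hj
        simp [patch, hj]
      · have hne : i ≠ j := fun h => hj (h ▸ hi)
        simp only [List.map_cons, patch, hj, decide_false, cond_false]
        exact ih ((List.mem_cons.mp hmem).resolve_left hne)
          fun k hk => hlt k (List.mem_cons_of_mem _ hk)
  exact h _ (List.mem_range.mpr hiN) fun j hj => List.mem_range.mp hj

/-- A bit as a natural number. -/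
def natBit (b : Bool) : ℕ := if b then 1 else 0

lemma approx_cylinder {A : Set (ℕ → Bool)} (hA : MeasurableSet A) {ε : ENNReal} (hε : 0 < ε) :
    ∃ (s : ℕ) (t : Set (ℕ → Bool)),
      (∀ u w, (∀ i < s, u i = w i) → (u ∈ t ↔ w ∈ t)) ∧ nu Bool (t ∆ A) < ε := by
  obtain ⟨t, ht, hlt⟩ := exists_measure_symmDiff_lt_of_generateFrom_isSetRing (μ := nu Bool)
    (isSetAlgebra_measurableCylinders (α := fun _ : ℕ => Bool)).isSetRing
    ⟨{Set.univ}, Set.countable_singleton _, by
      intro x hx
      rw [Set.mem_singleton_iff] at hx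
      subst hx
      exact (isSetAlgebra_measurableCylinders (α := fun _ : ℕ => Bool)).univ_mem, by simp⟩
    generateFrom_measurableCylinders.symm hA hε
  obtain ⟨I, S, -, rfl⟩ := (mem_measurableCylinders t).mp ht
  refine ⟨I.sup id + 1, _, fun u w h => ?_, hlt⟩
  have hr : I.restrict u = I.restrict w := by
    funext i
    exact h i (Nat.lt_succ_of_le (Finset.le_sup (f := id) i.2))
  simp [cylinder, hr]

/-- A patched program that is correct off a set of small measure. -/
theorem exists_patch {T : (ℕ → Bool) → (ℕ → Bool)}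
    (hdep : ∀ n, ∃ M, ∀ u w, (∀ i < M, u i = w i) → T u n = T w n)
    (hT : ∀ Z, TuringReducible (chi (T Z)) (chi Z)) {δ : ENNReal} (hδ : 0 < δ) :
    ∃ s C, (∀ Pc ∈ (C : List (List (List Bool) × OCode)), ∀ l ∈ Pc.1, l.length = s) ∧
      ∃ E : Set (ℕ → Bool), MeasurableSet E ∧ nu Bool Eᶜ < δ ∧
        ∀ Z ∈ E, ∀ n, ∃ L, natBit (T Z n) ∈ patch s C (pre Z L) n := by
  classical
  have : Nonempty OCode := ⟨.zero⟩
  obtain ⟨e, he⟩ := exists_surjective_nat OCode
  let A : ℕ → Set (ℕ → Bool) := fun c =>
    ⋂ n, ⋃ L, {Z | natBit (T Z n) ∈ (e c).run (listOr (pre Z L)) n}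
  have hAm : ∀ c, MeasurableSet (A c) := by
    intro c
    refine MeasurableSet.iInter fun n => MeasurableSet.iUnion fun L => ?_
    obtain ⟨M, hM⟩ := hdep n
    refine measurable_of_dep (max L M) fun u w h => ?_
    rw [hM u w fun i hi => h i (lt_of_lt_of_le hi (le_max_right _ _)),
      show pre u L = pre w L from List.map_congr_left fun i hi =>
        h i (lt_of_lt_of_le (List.mem_range.mp hi) (le_max_left _ _))]
  have hcover : (⋃ c, A c) = Set.univ := by
    refine Set.eq_univ_of_forall fun Z => ?_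
    obtain ⟨code, hcode⟩ := OCode.exists_run ((RecursiveIn.iff_nat).mp (hT Z))
    obtain ⟨c, rfl⟩ := he code
    refine Set.mem_iUnion.mpr ⟨c, Set.mem_iInter.mpr fun n => ?_⟩
    have hm : natBit (T Z n) ∈ (e c).run (chi Z) n := by
      rw [hcode n]; simp [chi, natBit]
    obtain ⟨L, hL⟩ := (run_use Z (e c) n _ hm).exists
    exact Set.mem_iUnion.mpr ⟨L, hL⟩
  let D : ℕ → Set (ℕ → Bool) := disjointed A
  have hDm : ∀ c, MeasurableSet (D c) := fun c => MeasurableSet.disjointed hAm c
  have hDdisj : Pairwise (Function.onFun Disjoint D) := disjoint_disjointed A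
  obtain ⟨N, hN⟩ : ∃ N, nu Bool (⋃ c ∈ Finset.range N, D c)ᶜ < δ / 2 := by
    have hanti : Antitone fun N => (⋃ c ∈ Finset.range N, D c)ᶜ := by
      intro a b hab
      refine Set.compl_subset_compl.mpr ?_
      exact Set.biUnion_subset_biUnion_left fun c hc => by
        simp only [Finset.coe_range, Set.mem_Iio] at hc ⊢
        omega
    have hlim := tendsto_measure_iInter_atTop (μ := nu Bool)
      (fun N => ((Finset.range N).measurableSet_biUnion fun c _ => hDm c).compl.nullMeasurableSet)
      hanti ⟨0, measure_ne_top _ _⟩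
    have hempty : (⋂ N, (⋃ c ∈ Finset.range N, D c)ᶜ) = ∅ := by
      refine Set.eq_empty_of_forall_notMem fun Z hZ => ?_
      have hu : Z ∈ ⋃ c, D c := by rw [iUnion_disjointed, hcover]; trivial
      obtain ⟨c, hc⟩ := Set.mem_iUnion.mp hu
      exact Set.mem_iInter.mp hZ (c + 1) (Set.mem_biUnion (by simp) hc)
    rw [hempty, measure_empty] at hlim
    exact (hlim.eventually_lt_const (ENNReal.div_pos hδ.ne' (by simp))).exists
  have hε : 0 < δ / 2 / ((N : ℕ) + 1 : ENNReal) :=
    ENNReal.div_pos (ENNReal.div_pos hδ.ne' (by simp)).ne' (by simp)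
  choose sI tI htI hsmall using fun c => approx_cylinder (hDm c) hε
  let s := (Finset.range N).sup sI
  let P : ℕ → List (List Bool) := fun c =>
    ((Finset.univ.filter fun v : Fin s → Bool =>
      (fun i => if h : i < s then v ⟨i, h⟩ else false) ∈ tI c).image List.ofFn).toList
  have hP : ∀ c < N, ∀ Z, pre Z s ∈ P c ↔ Z ∈ tI c := by
    intro c hc Z
    have hle : sI c ≤ s := Finset.le_sup (Finset.mem_range.mpr hc)
    have hpre : pre Z s = List.ofFn fun i : Fin s => Z i := by
      simp [pre, List.ofFn_eq_map, ← List.map_coe_finRange_eq_range]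
    simp only [P, Finset.mem_toList, Finset.mem_image, Finset.mem_filter, Finset.mem_univ,
      true_and, hpre]
    constructor
    · rintro ⟨v, hv, hveq⟩
      have := List.ofFn_injective hveq
      refine (htI c _ Z fun i hi => ?_).mp hv
      simp [lt_of_lt_of_le hi hle, this]
    · intro hZ
      refine ⟨fun i => Z i, (htI c Z _ fun i hi => ?_).mp hZ, rfl⟩
      simp [lt_of_lt_of_le hi hle]
  refine ⟨s, (List.range N).map fun c => (P c, e c), ?_, ?_⟩
  · intro Pc hPc l hl
    obtain ⟨c, -, rfl⟩ := List.mem_map.mp hPc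
    simp only [P, Finset.mem_toList, Finset.mem_image] at hl
    obtain ⟨v, -, rfl⟩ := hl
    simp
  let U : Set (ℕ → Bool) := ⋃ c ∈ Finset.range N, (tI c ∆ D c)
  have htIm : ∀ c, MeasurableSet (tI c) := fun c => measurable_of_dep (sI c) (htI c)
  have hUm : MeasurableSet U :=
    (Finset.range N).measurableSet_biUnion fun c _ => (htIm c).symmDiff (hDm c)
  have hU : nu Bool U ≤ δ / 2 := by
    refine (measure_biUnion_finset_le _ _).trans ?_
    refine (Finset.sum_le_sum fun c _ => (hsmall c).le).trans ?_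
    rw [Finset.sum_const, Finset.card_range, nsmul_eq_mul]
    calc (N : ENNReal) * (δ / 2 / ((N : ENNReal) + 1))
        ≤ ((N : ENNReal) + 1) * (δ / 2 / ((N : ENNReal) + 1)) := by gcongr; exact le_self_add
      _ ≤ δ / 2 := ENNReal.mul_div_le
  refine ⟨(⋃ c ∈ Finset.range N, D c) \ U,
    ((Finset.range N).measurableSet_biUnion fun c _ => hDm c).diff hUm, ?_, ?_⟩
  · rw [Set.compl_sdiff]
    refine lt_of_le_of_lt (measure_union_le _ _) ?_
    calc nu Bool U + nu Bool (⋃ c ∈ Finset.range N, D c)ᶜ
        < δ / 2 + δ / 2 := ENNReal.add_lt_add_of_le_of_lt (measure_ne_top _ _) hU hN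
      _ = δ := ENNReal.add_halves δ
  · rintro Z ⟨hZD, hZU⟩ n
    obtain ⟨c, hc, hZc⟩ := Set.mem_iUnion₂.mp hZD
    have hcN := Finset.mem_range.mp hc
    have hin : ∀ j < N, Z ∈ tI j ↔ Z ∈ D j := by
      intro j hj
      by_contra hcon
      refine hZU (Set.mem_biUnion (Finset.mem_range.mpr hj) ?_)
      rw [Set.mem_symmDiff]
      tauto
    have hA : Z ∈ A c := disjointed_subset A c hZc
    obtain ⟨L, hL⟩ := Set.mem_iUnion.mp (Set.mem_iInter.mp hA n)
    refine ⟨max L s, ?_⟩
    rw [patch_eq hcN]
    · exact run_pre_mono (le_max_left _ _) hL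
    · rw [take_pre (le_max_right _ _), hP c hcN, hin c hcN]; exact hZc
    · intro j hj hmem
      rw [take_pre (le_max_right _ _), hP j hj, hin j hj] at hmem
      by_contra hne
      exact Set.disjoint_left.mp (hDdisj hne) hmem hZc

/-- The evaluation with a bound on the number of steps. -/
theorem exists_ev {T : (ℕ → Bool) → (ℕ → Bool)} {D : ℕ}
    (hpoly : ∀ n, (fun Z => bit (T Z n)) ∈ Pd D)
    (hT : ∀ Z, TuringReducible (chi (T Z)) (chi Z)) :
    ∃ ev, Good (D + 1) ev T ∧ Primrec fun q : ℕ × List Bool × ℕ => ev q.1 q.2.1 q.2.2 := by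
  have hdep : ∀ n, ∃ M, ∀ u w, (∀ i < M, u i = w i) → T u n = T w n := fun n => by
    obtain ⟨M, hM⟩ := finite_dep (hpoly n)
    exact ⟨M, fun u w h => bit_inj (hM u w h)⟩
  let δ : ENNReal := ((((2 : ENNReal) ^ (D + 1) + 1) * 2))⁻¹
  have hδ : 0 < δ := by simp [δ, ENNReal.mul_eq_top]
  obtain ⟨s, C, hC, E, hEm, hEs, hE⟩ := exists_patch hdep hT hδ
  obtain ⟨ck, hck⟩ := Nat.Partrec.Code.exists_code.mp (patch_partrec s C)
  have heval : ∀ l n, Nat.Partrec.Code.eval ck (Encodable.encode (l, n)) = patch s C l n := by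
    intro l n; rw [hck]; simp [Part.map_id']
  let ev : ℕ → List Bool → ℕ → Option Bool := fun f l n =>
    (Nat.Partrec.Code.evaln f ck (Encodable.encode (l, n))).map fun v => decide (v = 1)
  refine ⟨ev, ⟨?_, ?_, fun n => ⟨D, by omega, hpoly n⟩, ⟨E, hEm, ?_, ?_⟩⟩, ?_⟩
  · intro f f' l n v hff h
    obtain ⟨x, hx, rfl⟩ := Option.map_eq_some_iff.mp h
    exact Option.map_eq_some_iff.mpr ⟨x, Nat.Partrec.Code.evaln_mono hff hx, rfl⟩
  · intro f Z L L' n v hL h
    obtain ⟨x, hx, rfl⟩ := Option.map_eq_some_iff.mp h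
    have h1 := Nat.Partrec.Code.evaln_sound hx
    rw [heval] at h1
    have h2 := patch_mono hL C hC h1
    rw [← heval] at h2
    obtain ⟨f', hf'⟩ := Nat.Partrec.Code.evaln_complete.mp h2
    exact ⟨f', Option.map_eq_some_iff.mpr ⟨x, hf', rfl⟩⟩
  · rw [mul_assoc]
    calc nu Bool Eᶜ * (((2 : ENNReal) ^ (D + 1) + 1) * 2)
        < δ * (((2 : ENNReal) ^ (D + 1) + 1) * 2) :=
          ENNReal.mul_lt_mul_left (by simp) (by simp [ENNReal.mul_eq_top]) hEs
      _ = 1 := ENNReal.inv_mul_cancel (by simp) (by simp [ENNReal.mul_eq_top])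
  · intro Z hZ n
    obtain ⟨L, hL⟩ := hE Z hZ n
    rw [← heval] at hL
    obtain ⟨f, hf⟩ := Nat.Partrec.Code.evaln_complete.mp hL
    refine ⟨L, f, Option.map_eq_some_iff.mpr ⟨_, hf, ?_⟩⟩
    cases T Z n <;> rfl
  · refine Primrec.option_map (Nat.Partrec.Code.primrec_evaln.comp (Primrec.pair
      (Primrec.pair Primrec.fst (Primrec.const ck)) (Primrec.encode.comp Primrec.snd))) ?_
    exact (Primrec.eq.decide.comp Primrec.snd (Primrec.const 1)).to₂

end P327
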