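import Mathlib

/-!
P327: Turing degrees of sets of naturals, and maps of Cantor space of bounded degree.
-/

namespace P327

/-- The characteristic function of `A`, as an oracle. -/
def chi (A : ℕ → Bool) : ℕ →. ℕ := fun n => Part.some (if A n then 1 else 0)

/-- A set of naturals. -/
structure NatSet where
  /-- membership -/
  mem : ℕ → Bool

instance : Preorder NatSet where
  le A B := TuringReducible (chi A.mem) (chi B.mem)
  le_refl A := TuringReducible.refl (chi A.mem)
  le_trans _ _ _ h₁ h₂ := TuringReducible.trans h₁ h₂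

/-- The Turing degrees of sets of naturals. -/
abbrev SetDegree := Antisymmetrization NatSet (· ≤ ·)

/-- The Turing degree of a set. -/
def deg (A : ℕ → Bool) : SetDegree := toAntisymmetrization (· ≤ ·) (⟨A⟩ : NatSet)

/-- A bit as an element of the field with two elements. -/
def bit (b : Bool) : ZMod 2 := if b then 1 else 0

/-- Every output bit is a polynomial of degree at most `d` in the input bits. -/
def DegreeLE (d : ℕ) (F : (ℕ → Bool) → (ℕ → Bool)) : Prop :=
  ∀ n, ∃ M : Finset (Finset ℕ), (∀ S ∈ M, S.card ≤ d) ∧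
    ∀ A, bit (F A n) = ∑ S ∈ M, ∏ i ∈ S, bit (A i)

/-- Every output bit depends on at most `k` input bits. -/
def LocalLE (k : ℕ) (F : (ℕ → Bool) → (ℕ → Bool)) : Prop :=
  ∀ n, ∃ S : Finset ℕ, S.card ≤ k ∧
    ∀ A B, (∀ i ∈ S, A i = B i) → F A n = F B n

end P327
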