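import Vale.Agent.P327.Oracle

/-!
Functionals on Cantor space: joins, composition, iteration, and elimination of generic parameters.
-/

namespace P327

/-- The program `c` computes `Y` from `X`. -/
def Comp (c : OCode) (X Y : ℕ → Bool) : Prop := ∀ n, c.run (chi X) n = chi Y n

lemma chi_inj {A B : ℕ → Bool} {n : ℕ} (h : chi A n = chi B n) : A n = B n := by
  simp only [chi, Part.some_inj] at h
  revert h
  cases A n <;> cases B n <;> simp

lemma Comp.unique {c : OCode} {X Y Y' : ℕ → Bool} (h : Comp c X Y) (h' : Comp c X Y') : Y = Y' :=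
  funext fun n => chi_inj ((h n).symm.trans (h' n))

lemma run_recursiveIn (o : ℕ →. ℕ) (c : OCode) : Nat.RecursiveIn {o} (c.run o) := by
  induction c with
  | zero => exact Nat.RecursiveIn.zero.of_eq fun _ => rfl
  | succ => exact Nat.RecursiveIn.succ.of_eq fun _ => rfl
  | left => exact Nat.RecursiveIn.left.of_eq fun _ => rfl
  | right => exact Nat.RecursiveIn.right.of_eq fun _ => rfl
  | query => exact .oracle _ rfl
  | pair f h ihf ihh =>
    exact (ihf.pair ihh).of_eq fun n => by simp [OCode.run, Seq.seq, Part.bind_map]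
  | comp f h ihf ihh => exact (ihf.comp ihh).of_eq fun n => rfl
  | prec f h ihf ihh => exact (ihf.prec ihh).of_eq fun n => rfl
  | rfind f ihf => exact ihf.rfind.of_eq fun n => rfl

lemma Comp.reduces {c : OCode} {X Y : ℕ → Bool} (h : Comp c X Y) :
    TuringReducible (chi Y) (chi X) := by
  rw [TuringReducible, RecursiveIn.iff_nat]
  exact (run_recursiveIn _ c).of_eq h

lemma exists_comp {X Y : ℕ → Bool} (h : TuringReducible (chi Y) (chi X)) : ∃ c, Comp c X Y :=
  OCode.exists_run (RecursiveIn.iff_nat.mp h)

lemma deg_le_iff_comp {X Y : ℕ → Bool} : deg Y ≤ deg X ↔ ∃ c, Comp c X Y :=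
  ⟨fun h => exists_comp h, fun ⟨_, hc⟩ => hc.reduces⟩

/-- Replace the oracle queries of `c` by the program `d`. -/
def OCode.subst : OCode → OCode → OCode
  | .zero, _ => .zero
  | .succ, _ => .succ
  | .left, _ => .left
  | .right, _ => .right
  | .query, d => d
  | .pair f h, d => .pair (f.subst d) (h.subst d)
  | .comp f h, d => .comp (f.subst d) (h.subst d)
  | .prec f h, d => .prec (f.subst d) (h.subst d)
  | .rfind f, d => .rfind (f.subst d)

lemma run_subst (o : ℕ →. ℕ) (c d : OCode) : (c.subst d).run o = c.run (d.run o) := by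
  induction c with
  | zero | succ | left | right => rfl
  | query => rfl
  | pair f h ihf ihh => simp only [OCode.subst, OCode.run, ihf, ihh]; rfl
  | comp f h ihf ihh => simp only [OCode.subst, OCode.run, ihf, ihh]; rfl
  | prec f h ihf ihh => simp only [OCode.subst, OCode.run, ihf, ihh]; rfl
  | rfind f ihf => simp only [OCode.subst, OCode.run, ihf]; rfl

lemma Comp.trans {c d : OCode} {X Y Z : ℕ → Bool} (hd : Comp d X Y) (hc : Comp c Y Z) :
    Comp (c.subst d) X Z := by
  intro n
  rw [run_subst, show d.run (chi X) = chi Y from funext hd]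
  exact hc n

lemma exists_code_const {f : ℕ →. ℕ} (hf : Nat.Partrec f) :
    ∃ c : OCode, ∀ o n, c.run o n = f n := by
  induction hf with
  | zero => exact ⟨.zero, fun o n => rfl⟩
  | succ => exact ⟨.succ, fun o n => rfl⟩
  | left => exact ⟨.left, fun o n => rfl⟩
  | right => exact ⟨.right, fun o n => rfl⟩
  | @pair f g _ _ ihf ihg =>
    obtain ⟨a, ha⟩ := ihf
    obtain ⟨b, hb⟩ := ihg
    exact ⟨.pair a b, fun o n => by simp [OCode.run, ha, hb, Seq.seq, Part.bind_map]⟩
  | @comp f g _ _ ihf ihg =>
    obtain ⟨a, ha⟩ := ihf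
    obtain ⟨b, hb⟩ := ihg
    refine ⟨.comp a b, fun o n => ?_⟩
    simp only [OCode.run, hb]
    exact congrArg _ (funext (ha o))
  | @prec f g _ _ ihf ihg =>
    obtain ⟨a, ha⟩ := ihf
    obtain ⟨b, hb⟩ := ihg
    refine ⟨.prec a b, fun o n => ?_⟩
    simp only [OCode.run, ha, hb]
    rfl
  | @rfind f _ ihf =>
    obtain ⟨a, ha⟩ := ihf
    refine ⟨.rfind a, fun o n => ?_⟩
    simp only [OCode.run, ha]
    rfl

lemma exists_code_computable {f : ℕ → ℕ} (hf : Computable f) :
    ∃ c : OCode, ∀ o n, c.run o n = Part.some (f n) :=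
  exists_code_const (Partrec.nat_iff.mp hf.partrec)

lemma run_pair {o : ℕ →. ℕ} {c d : OCode} {n a b : ℕ} (hc : c.run o n = Part.some a)
    (hd : d.run o n = Part.some b) : (OCode.pair c d).run o n = Part.some (Nat.pair a b) := by
  simp [OCode.run, hc, hd]

lemma run_comp {o : ℕ →. ℕ} {c d : OCode} {n a : ℕ} (hd : d.run o n = Part.some a) :
    (OCode.comp c d).run o n = c.run o a := by
  simp only [OCode.run, hd]
  exact Part.bind_some a _

/-- Bitwise combination of two reindexed outputs of two programs, uniformly. -/
theorem exists_comp_map₂ {f g : ℕ → ℕ} (hf : Computable f) (hg : Computable g)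
    {op : ℕ → Bool → Bool → Bool} (hop : Computable fun p : ℕ × Bool × Bool => op p.1 p.2.1 p.2.2)
    (c d : OCode) :
    ∃ e, ∀ Z X Y, Comp c Z X → Comp d Z Y → Comp e Z (fun n => op n (X (f n)) (Y (g n))) := by
  obtain ⟨cf, hcf⟩ := exists_code_computable hf
  obtain ⟨cg, hcg⟩ := exists_code_computable hg
  obtain ⟨cid, hcid⟩ := exists_code_computable Computable.id
  have hsel : Computable fun p : ℕ =>
      bif op p.unpair.1 (decide (p.unpair.2.unpair.1 = 1)) (decide (p.unpair.2.unpair.2 = 1))
      then 1 else 0 := by
    refine Computable.cond ?_ (Computable.const 1) (Computable.const 0)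
    have hl : Computable fun p : ℕ => p.unpair.1 := (Primrec.fst.comp Primrec.unpair).to_comp
    have hr : Computable fun p : ℕ => p.unpair.2 := (Primrec.snd.comp Primrec.unpair).to_comp
    have hb : Computable fun p : ℕ => decide (p = 1) :=
      (Primrec.eq.decide.comp Primrec.id (Primrec.const 1)).to_comp
    exact hop.comp (hl.pair ((hb.comp (hl.comp hr)).pair (hb.comp (hr.comp hr))))
  obtain ⟨cs, hcs⟩ := exists_code_computable hsel
  refine ⟨.comp cs (.pair cid (.pair (.comp c cf) (.comp d cg))), fun Z X Y hX hY n => ?_⟩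
  have h1 : (OCode.comp c cf).run (chi Z) n = Part.some (if X (f n) then 1 else 0) := by
    rw [run_comp (hcf _ n), hX]; rfl
  have h2 : (OCode.comp d cg).run (chi Z) n = Part.some (if Y (g n) then 1 else 0) := by
    rw [run_comp (hcg _ n), hY]; rfl
  rw [run_comp (run_pair (hcid _ n) (run_pair h1 h2)), hcs]
  cases hx : X (f n) <;> cases hy : Y (g n) <;> cases ho : op n (X (f n)) (Y (g n)) <;>
    simp_all [chi]

/-- Join of two sets: even and odd numbers. -/
def join (X Y : ℕ → Bool) : ℕ → Bool :=
  fun n => if n % 2 = 0 then X (n / 2) else Y (n / 2)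

/-- The program returning its oracle. -/
lemma comp_query (X : ℕ → Bool) : Comp .query X X := fun _ => rfl

/-- Computable reindexing, uniformly. -/
theorem exists_comp_pullback {f : ℕ → ℕ} (hf : Computable f) :
    ∃ e, ∀ X : ℕ → Bool, Comp e X (fun n => X (f n)) := by
  obtain ⟨e, he⟩ := exists_comp_map₂ (op := fun _ a _ => a) hf hf
    (Computable.fst.comp Computable.snd) .query .query
  exact ⟨e, fun X => he X X X (comp_query X) (comp_query X)⟩

/-- The two projections of a join. -/
theorem exists_comp_left : ∃ e, ∀ X Y, Comp e (join X Y) X := by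
  obtain ⟨e, he⟩ := exists_comp_pullback (f := fun n => 2 * n)
    (Primrec.nat_mul.comp (Primrec.const 2) Primrec.id).to_comp
  refine ⟨e, fun X Y => ?_⟩
  have h := he (join X Y)
  simpa [join] using h

theorem exists_comp_right : ∃ e, ∀ X Y, Comp e (join X Y) Y := by
  obtain ⟨e, he⟩ := exists_comp_pullback (f := fun n => 2 * n + 1)
    (Primrec.succ.comp (Primrec.nat_mul.comp (Primrec.const 2) Primrec.id)).to_comp
  refine ⟨e, fun X Y => ?_⟩
  have h := he (join X Y)
  simp only [join, Nat.mul_add_mod_self_left, Nat.one_mod, one_ne_zero, if_false] at h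
  convert h using 2 with n
  congr 1
  omega

/-- Programs for `X` and for `Y` give one for their join, uniformly. -/
theorem exists_comp_join (c d : OCode) :
    ∃ e, ∀ Z X Y, Comp c Z X → Comp d Z Y → Comp e Z (join X Y) := by
  obtain ⟨e, he⟩ := exists_comp_map₂ (f := fun n => n / 2) (g := fun n => n / 2)
    (op := fun n a b => bif decide (n % 2 = 0) then a else b)
    (Primrec.nat_div.comp Primrec.id (Primrec.const 2)).to_comp
    (Primrec.nat_div.comp Primrec.id (Primrec.const 2)).to_comp
    (Primrec.cond (Primrec.eq.decide.comp (Primrec.nat_mod.comp Primrec.fst (Primrec.const 2))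
      (Primrec.const 0)) (Primrec.fst.comp Primrec.snd) (Primrec.snd.comp Primrec.snd)).to_comp
    c d
  refine ⟨e, fun Z X Y hX hY => ?_⟩
  convert he Z X Y hX hY using 1
  funext n
  simp [join, Bool.cond_eq_ite]

/-- Programs for `X` and for `Y` give one for their sum, uniformly. -/
theorem exists_comp_xor (c d : OCode) :
    ∃ e, ∀ Z X Y, Comp c Z X → Comp d Z Y → Comp e Z (fun n => xor (X n) (Y n)) := by
  obtain ⟨e, he⟩ := exists_comp_map₂ (op := fun _ a b => xor a b) Computable.id Computable.id
    ((Primrec.cond (Primrec.fst.comp Primrec.snd)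
      (Primrec.not.comp (Primrec.snd.comp Primrec.snd))
      (Primrec.snd.comp Primrec.snd)).of_eq fun p => by cases p.2.1 <;> simp).to_comp c d
  exact ⟨e, he⟩

lemma deg_le_join_left (X Y : ℕ → Bool) : deg X ≤ deg (join X Y) := by
  obtain ⟨e, he⟩ := exists_comp_left
  exact deg_le_iff_comp.mpr ⟨e, he X Y⟩

lemma deg_le_join_right (X Y : ℕ → Bool) : deg Y ≤ deg (join X Y) := by
  obtain ⟨e, he⟩ := exists_comp_right
  exact deg_le_iff_comp.mpr ⟨e, he X Y⟩

lemma deg_join_le {X Y Z : ℕ → Bool} (hX : deg X ≤ deg Z) (hY : deg Y ≤ deg Z) :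
    deg (join X Y) ≤ deg Z := by
  obtain ⟨c, hc⟩ := deg_le_iff_comp.mp hX
  obtain ⟨d, hd⟩ := deg_le_iff_comp.mp hY
  obtain ⟨e, he⟩ := exists_comp_join c d
  exact deg_le_iff_comp.mpr ⟨e, he Z X Y hc hd⟩

lemma deg_surjective : Function.Surjective deg := by
  intro x
  induction x using Antisymmetrization.ind with
  | _ a => exact ⟨a.mem, rfl⟩

lemma map_deg_join (π : SetDegree ≃o SetDegree) {h : (ℕ → Bool) → (ℕ → Bool)}
    (hπ : ∀ A, π (deg A) = deg (h A)) (X Y : ℕ → Bool) :
    π (deg (join X Y)) = deg (join (h X) (h Y)) := by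
  obtain ⟨V, hV⟩ := deg_surjective (π (deg (join X Y)))
  have hX : deg (h X) ≤ deg V := by rw [hV, ← hπ]; exact π.monotone (deg_le_join_left X Y)
  have hY : deg (h Y) ≤ deg V := by rw [hV, ← hπ]; exact π.monotone (deg_le_join_right X Y)
  refine le_antisymm ?_ (hV ▸ deg_join_le hX hY)
  obtain ⟨W, hW⟩ := deg_surjective (π.symm (deg (join (h X) (h Y))))
  have hW' : π (deg W) = deg (join (h X) (h Y)) := by rw [hW, OrderIso.apply_symm_apply]
  rw [← hW', OrderIso.le_iff_le]
  refine deg_join_le ?_ ?_
  · rw [← π.le_iff_le, hW', hπ]; exact deg_le_join_left _ _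
  · rw [← π.le_iff_le, hW', hπ]; exact deg_le_join_right _ _

/-- A bounded evaluation of a program on a finite oracle. -/
theorem exists_stage (c : OCode) : ∃ ev : ℕ → List Bool → ℕ → Option Bool,
    (Primrec fun q : ℕ × List Bool × ℕ => ev q.1 q.2.1 q.2.2) ∧
    (∀ {X Y : ℕ → Bool}, Comp c X Y → ∀ {f L n v}, ev f (pre X L) n = some v → v = Y n) ∧
    ∀ {X Y : ℕ → Bool}, Comp c X Y → ∀ n, ∀ᶠ L in Filter.atTop,
      ∃ f, ev f (pre X L) n = some (Y n) := by
  obtain ⟨ck, hck⟩ := Nat.Partrec.Code.exists_code.mp (run_partrec c)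
  have heval : ∀ l n, Nat.Partrec.Code.eval ck (Encodable.encode (l, n))
      = c.run (listOr l) n := by
    intro l n; rw [hck]; simp [Part.map_id']
  refine ⟨fun f l n =>
    (Nat.Partrec.Code.evaln f ck (Encodable.encode (l, n))).map fun v => decide (v = 1),
    ?_, ?_, ?_⟩
  · refine Primrec.option_map (Nat.Partrec.Code.primrec_evaln.comp (Primrec.pair
      (Primrec.pair Primrec.fst (Primrec.const ck)) (Primrec.encode.comp Primrec.snd))) ?_
    exact (Primrec.eq.decide.comp Primrec.snd (Primrec.const 1)).to₂
  · intro X Y hXY f L n v h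
    obtain ⟨x, hx, rfl⟩ := Option.map_eq_some_iff.mp h
    have h1 := Nat.Partrec.Code.evaln_sound hx
    rw [heval] at h1
    have h2 := run_pre_chi h1
    rw [hXY n] at h2
    simp only [chi, Part.mem_some_iff] at h2
    subst h2
    cases Y n <;> rfl
  · intro X Y hXY n
    have hm : (if Y n then 1 else 0) ∈ c.run (chi X) n := by
      rw [hXY n]; exact Part.mem_some _
    filter_upwards [run_use X c n _ hm] with L hL
    rw [← heval] at hL
    obtain ⟨f, hf⟩ := Nat.Partrec.Code.evaln_complete.mp hL
    refine ⟨f, Option.map_eq_some_iff.mpr ⟨_, hf, ?_⟩⟩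
    cases Y n <;> rfl

/-- The first value found on initial segments of `p`. -/
def look (ev : ℕ → List Bool → ℕ → Option Bool) (p : List Bool) (n : ℕ) : Option Bool :=
  ((List.range p.length).filterMap fun q => ev q.unpair.2 (p.take q.unpair.1) n).head?

/-- The known initial segment of the output on `p`. -/
def lookStep (ev : ℕ → List Bool → ℕ → Option Bool) (p : List Bool) : List Bool :=
  (List.range p.length).foldl (fun acc i =>
    bif decide (acc.length = i) then ((look ev p i).map fun v => acc ++ [v]).getD acc else acc) []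

lemma pre_take {Z : ℕ → Bool} {s L : ℕ} (h : s ≤ L) : (pre Z L).take s = pre Z s := by
  simp [pre, ← List.map_take, List.take_range, h]

section
variable {ev : ℕ → List Bool → ℕ → Option Bool} {X Y : ℕ → Bool}
  (hsound : ∀ {f L n v}, ev f (pre X L) n = some v → v = Y n)
  (hcomplete : ∀ n, ∀ᶠ L in Filter.atTop, ∃ f, ev f (pre X L) n = some (Y n))

include hsound in
lemma look_sound {s n : ℕ} {v : Bool} (h : look ev (pre X s) n = some v) : v = Y n := by
  obtain ⟨q, hq, hv⟩ := List.mem_filterMap.mp (List.mem_of_head? h)
  have hq' : q < s := by simpa [pre] using hq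
  rw [pre_take ((Nat.unpair_left_le q).trans hq'.le)] at hv
  exact hsound hv

include hsound hcomplete in
lemma look_complete (n : ℕ) :
    ∀ᶠ s in Filter.atTop, look ev (pre X s) n = some (Y n) := by
  obtain ⟨L, f, hf⟩ := (hcomplete n).exists
  filter_upwards [Filter.eventually_gt_atTop (Nat.pair L f)] with s hs
  have hne : Y n ∈ (List.range (pre X s).length).filterMap
      fun q => ev q.unpair.2 ((pre X s).take q.unpair.1) n := by
    refine List.mem_filterMap.mpr ⟨Nat.pair L f, by simpa [pre] using hs, ?_⟩
    rw [Nat.unpair_pair, pre_take (le_trans (Nat.left_le_pair L f) hs.le)]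
    exact hf
  obtain ⟨w, hw⟩ : ∃ w, look ev (pre X s) n = some w := by
    rw [look]
    cases hl : List.filterMap (fun q => ev q.unpair.2 ((pre X s).take q.unpair.1) n)
        (List.range (pre X s).length) with
    | nil => rw [hl] at hne; simp at hne
    | cons a as => exact ⟨a, rfl⟩
  rw [hw, look_sound hsound hw]

include hsound in
lemma lookStep_spec (s : ℕ) : ∃ r, lookStep ev (pre X s) = pre Y r ∧
    ∀ R ≤ s, (∀ i < R, look ev (pre X s) i = some (Y i)) → R ≤ r := by
  have hlen : (pre X s).length = s := by simp [pre]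
  simp only [lookStep, hlen]
  have h : ∀ j, ∃ r, r ≤ j ∧
      (List.range j).foldl (fun acc i => bif decide (acc.length = i) then
        ((look ev (pre X s) i).map fun v => acc ++ [v]).getD acc else acc) [] = pre Y r ∧
      ∀ R ≤ j, (∀ i < R, look ev (pre X s) i = some (Y i)) → R ≤ r := by
    intro j
    induction j with
    | zero => exact ⟨0, le_rfl, by simp [pre], fun R hR _ => hR⟩
    | succ j ih =>
      obtain ⟨r, hrj, hr, hR⟩ := ih
      rw [List.range_succ, List.foldl_append, hr, List.foldl_cons, List.foldl_nil]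
      have hl : (pre Y r).length = r := by simp [pre]
      simp only [hl]
      by_cases hj : r = j
      · subst hj
        cases hb : look ev (pre X s) r with
        | none =>
          refine ⟨r, Nat.le_succ r, by simp, fun R hR' hall => ?_⟩
          by_contra hcon
          have := hall r (by omega)
          rw [hb] at this
          simp at this
        | some v =>
          refine ⟨r + 1, le_rfl, ?_, fun R hR' _ => hR'⟩
          simp [look_sound hsound hb, pre, List.range_succ]
      · refine ⟨r, hrj.trans (Nat.le_succ j), by simp [hj], fun R hR' hall => ?_⟩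
        by_contra hcon
        have := hR (r + 1) (by omega) fun i hi => hall i (by omega)
        omega
  obtain ⟨r, -, hr, hR⟩ := h s
  exact ⟨r, hr, hR⟩

end

/-- The iterate of `lookStep`. -/
def lookSteps (ev : ℕ → List Bool → ℕ → Option Bool) (p : List Bool) (n : ℕ) : List Bool :=
  Nat.rec p (fun _ q => lookStep ev q) n

lemma look_primrec {ev : ℕ → List Bool → ℕ → Option Bool}
    (hev : Primrec fun q : ℕ × List Bool × ℕ => ev q.1 q.2.1 q.2.2) :
    Primrec fun q : List Bool × ℕ => look ev q.1 q.2 := by
  refine Primrec.list_head?.comp (Primrec.listFilterMap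
    (Primrec.list_range.comp (Primrec.list_length.comp Primrec.fst)) ?_)
  exact (hev.comp (Primrec.pair (Primrec.snd.comp (Primrec.unpair.comp Primrec.snd))
    (Primrec.pair
      (Primrec.list_take.comp (Primrec.fst.comp (Primrec.unpair.comp Primrec.snd))
        (Primrec.fst.comp Primrec.fst))
      (Primrec.snd.comp Primrec.fst)))).to₂

lemma lookSteps_primrec {ev : ℕ → List Bool → ℕ → Option Bool}
    (hev : Primrec fun q : ℕ × List Bool × ℕ => ev q.1 q.2.1 q.2.2) :
    Primrec fun q : List Bool × ℕ => lookSteps ev q.1 q.2 := by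
  have hstep : Primrec fun p : List Bool => lookStep ev p := by
    refine Primrec.list_foldl
      (h := fun (p : List Bool) (q : List Bool × ℕ) => bif decide (q.1.length = q.2) then
        ((look ev p q.2).map fun v => q.1 ++ [v]).getD q.1 else q.1)
      (Primrec.list_range.comp Primrec.list_length) (Primrec.const []) ?_
    have hacc : Primrec fun a : List Bool × List Bool × ℕ => a.2.1 :=
      Primrec.fst.comp Primrec.snd
    refine (Primrec.cond
      (Primrec.eq.decide.comp (Primrec.list_length.comp hacc) (Primrec.snd.comp Primrec.snd))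
      (Primrec.option_getD.comp
        (Primrec.option_map ((look_primrec hev).comp
            (Primrec.pair Primrec.fst (Primrec.snd.comp Primrec.snd)))
          (Primrec.list_append.comp (hacc.comp Primrec.fst)
            (Primrec.list_cons.comp Primrec.snd (Primrec.const []))).to₂)
        hacc)
      hacc).to₂
  refine Primrec.nat_rec' (h := fun _ (q : ℕ × List Bool) => lookStep ev q.2)
    Primrec.snd Primrec.fst ?_
  exact (hstep.comp (Primrec.snd.comp Primrec.snd)).to₂

/-- Uniform iteration: the bits read off computable iterates of one functional reduce to the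
starting point. -/
theorem iterate_decode {e e' : OCode} {S O : ℕ → ℕ → Bool} {k : ℕ → ℕ} {i : ℕ} {a : ℕ → Bool}
    (hk : Computable k) (hS : ∀ n, Comp e (S n) (S (n + 1)))
    (hO : ∀ j, Comp e' (S (k j)) (O j)) (ha : ∀ j, O j i = a j) :
    TuringReducible (chi a) (chi (S 0)) := by
  obtain ⟨ev, hev, hsound, hcompl⟩ := exists_stage e
  obtain ⟨ev', hev', hsound', hcompl'⟩ := exists_stage e'
  have hsteps : ∀ n s, ∃ r, lookSteps ev (pre (S 0) s) n = pre (S n) r := by
    intro n s
    induction n with
    | zero => exact ⟨s, rfl⟩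
    | succ n ih =>
      obtain ⟨r, hr⟩ := ih
      obtain ⟨r', hr', -⟩ := lookStep_spec (hsound (hS n)) r
      exact ⟨r', by rw [← hr', ← hr]; rfl⟩
  have hlong : ∀ n R, ∀ᶠ s in Filter.atTop, R ≤ (lookSteps ev (pre (S 0) s) n).length := by
    intro n
    induction n with
    | zero =>
      intro R
      filter_upwards [Filter.eventually_ge_atTop R] with s hs
      simpa [lookSteps, pre] using hs
    | succ n ih =>
      intro R
      have h1 : ∀ᶠ r in Filter.atTop,
          R ≤ r ∧ ∀ j ∈ Finset.range R, look ev (pre (S n) r) j = some (S (n + 1) j) :=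
        (Filter.eventually_ge_atTop R).and ((Finset.range R).eventually_all.mpr
          fun j _ => look_complete (hsound (hS n)) (hcompl (hS n)) j)
      obtain ⟨R0, hR0⟩ := Filter.eventually_atTop.mp h1
      filter_upwards [ih R0] with s hs
      obtain ⟨r, hr⟩ := hsteps n s
      rw [hr] at hs
      obtain ⟨hRr, hall⟩ := hR0 r (by simpa [pre] using hs)
      obtain ⟨r', hr', hlen⟩ := lookStep_spec (hsound (hS n)) r
      have hs' : lookSteps ev (pre (S 0) s) (n + 1) = pre (S (n + 1)) r' := by
        rw [← hr', ← hr]; rfl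
      rw [hs']
      simpa [pre] using hlen R hRr fun j hj => hall j (Finset.mem_range.mpr hj)
  have hF : Computable₂ fun p j => look ev' (lookSteps ev p (k j)) i :=
    ((look_primrec hev').to_comp.comp
      (((lookSteps_primrec hev).to_comp.comp (Computable.fst.pair (hk.comp Computable.snd))).pair
        (Computable.const i))).to₂
  refine search_reduces hF ?_ ?_
  · intro s j v hv
    obtain ⟨r, hr⟩ := hsteps (k j) s
    rw [hr] at hv
    rw [← ha j]
    exact look_sound (hsound' (hO j)) hv
  · intro j
    obtain ⟨R0, hR0⟩ := Filter.eventually_atTop.mp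
      (look_complete (hsound' (hO j)) (hcompl' (hO j)) i)
    obtain ⟨s, hs⟩ := (hlong (k j) R0).exists
    obtain ⟨r, hr⟩ := hsteps (k j) s
    rw [hr] at hs
    exact ⟨s, _, by rw [hr]; exact hR0 r (by simpa [pre] using hs)⟩

/-- The prefix of a join, from prefixes of its parts. -/
def interleave (L : ℕ) (p q : List Bool) : List Bool :=
  (List.range (2 * L)).map fun n =>
    bif decide (n % 2 = 0) then (p[n / 2]?).getD false else (q[n / 2]?).getD false

lemma interleave_pre (X Y : ℕ → Bool) {L s t : ℕ} (hs : L ≤ s) (ht : L ≤ t) :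
    interleave L (pre X s) (pre Y t) = pre (join X Y) (2 * L) := by
  refine List.map_congr_left fun n hn => ?_
  have h2 : n / 2 < L := by have := List.mem_range.mp hn; omega
  by_cases h : n % 2 = 0 <;>
    simp [join, pre, h, lt_of_lt_of_le h2 hs, lt_of_lt_of_le h2 ht]

/-- Elimination of a parameter that is dense in a cylinder. -/
theorem generic_elim {e : OCode} {a B : ℕ → Bool} {D : Set (ℕ → Bool)} {sig : List Bool}
    (hdense : ∀ t, ∃ P ∈ D, pre P (sig ++ t).length = sig ++ t)
    (hcomp : ∀ P ∈ D, Comp e (join a P) B) : TuringReducible (chi B) (chi a) := by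
  obtain ⟨ev, hev, hsound, hcompl⟩ := exists_stage e
  let F : List Bool → ℕ → Option Bool := fun p n =>
    ((List.range p.length).filterMap fun q =>
      ev q.unpair.2
        (interleave (min p.length (sig ++ (Encodable.decode (α := List Bool) q.unpair.1).getD []).length)
          p (sig ++ (Encodable.decode (α := List Bool) q.unpair.1).getD [])) n).head?
  have hF : Computable₂ F := by
    refine Primrec.to_comp (Primrec.list_head?.comp (Primrec.listFilterMap
      (Primrec.list_range.comp (Primrec.list_length.comp Primrec.fst)) ?_))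
    have htau : Primrec fun a : (List Bool × ℕ) × ℕ =>
        sig ++ (Encodable.decode (α := List Bool) a.2.unpair.1).getD [] :=
      Primrec.list_append.comp (Primrec.const sig) (Primrec.option_getD.comp
        (Primrec.decode.comp (Primrec.fst.comp (Primrec.unpair.comp Primrec.snd))) (Primrec.const []))
    have hil : Primrec fun a : ℕ × List Bool × List Bool => interleave a.1 a.2.1 a.2.2 := by
      refine Primrec.list_map (Primrec.list_range.comp
        (Primrec.nat_mul.comp (Primrec.const 2) Primrec.fst)) ?_
      exact (Primrec.cond (Primrec.eq.decide.comp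
          (Primrec.nat_mod.comp Primrec.snd (Primrec.const 2)) (Primrec.const 0))
        (Primrec.option_getD.comp (Primrec.list_getElem?.comp
          (Primrec.fst.comp (Primrec.snd.comp Primrec.fst))
          (Primrec.nat_div.comp Primrec.snd (Primrec.const 2))) (Primrec.const false))
        (Primrec.option_getD.comp (Primrec.list_getElem?.comp
          (Primrec.snd.comp (Primrec.snd.comp Primrec.fst))
          (Primrec.nat_div.comp Primrec.snd (Primrec.const 2))) (Primrec.const false))).to₂
    exact (hev.comp (Primrec.pair (Primrec.snd.comp (Primrec.unpair.comp Primrec.snd))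
      (Primrec.pair (hil.comp (Primrec.pair
          (Primrec.nat_min.comp (Primrec.list_length.comp (Primrec.fst.comp Primrec.fst))
            (Primrec.list_length.comp htau))
          (Primrec.pair (Primrec.fst.comp Primrec.fst) htau)))
        (Primrec.snd.comp Primrec.fst)))).to₂
  refine search_reduces hF ?_ ?_
  · intro s n v hv
    obtain ⟨q, -, hq⟩ := List.mem_filterMap.mp (List.mem_of_head? hv)
    obtain ⟨P, hPD, hP⟩ := hdense ((Encodable.decode (α := List Bool) q.unpair.1).getD [])
    rw [← hP, interleave_pre a P (by simp [pre]) (by simp [pre])] at hq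
    exact hsound (hcomp P hPD) hq
  · intro n
    obtain ⟨P, hPD, hP⟩ := hdense []
    rw [List.append_nil] at hP
    obtain ⟨R0, hR0⟩ := Filter.eventually_atTop.mp (hcompl (hcomp P hPD) n)
    let L := max R0 sig.length
    obtain ⟨f, hf⟩ := hR0 (2 * L) (by simp only [L]; omega)
    let t : List Bool := (pre P L).drop sig.length
    have ht : sig ++ t = pre P L := by
      conv_lhs => rw [← hP, ← pre_take (Z := P) (le_max_right R0 sig.length)]
      exact List.take_append_drop _ _
    let q := Nat.pair (Encodable.encode t) f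
    let s := max (q + 1) L
    have hmem : B n ∈ (List.range (pre a s).length).filterMap fun q =>
        ev q.unpair.2
          (interleave (min (pre a s).length
              (sig ++ (Encodable.decode (α := List Bool) q.unpair.1).getD []).length)
            (pre a s) (sig ++ (Encodable.decode (α := List Bool) q.unpair.1).getD [])) n := by
      refine List.mem_filterMap.mpr ⟨q, by simp [pre, s], ?_⟩
      simp only [q, Nat.unpair_pair, Encodable.encodek, Option.getD_some, ht]
      rw [show min (pre a s).length (pre P L).length = L by simp [pre, s],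
        interleave_pre a P (le_max_right _ _) le_rfl]
      exact hf
    cases hl : F (pre a s) n with
    | none =>
      simp only [F, List.head?_eq_none_iff] at hl
      rw [hl] at hmem
      simp at hmem
    | some v => exact ⟨s, v, hl⟩

lemma measurableSet_mem_run (c : OCode) (n v : ℕ) :
    IsOpen {X : ℕ → Bool | v ∈ c.run (chi X) n} := by
  refine isOpen_iff_forall_mem_open.mpr fun X hX => ?_
  obtain ⟨L, hL⟩ := (run_use X c n v hX).exists
  refine ⟨{Y | ∀ i < L, Y i = X i}, fun Y hY => ?_, ?_, fun _ _ => rfl⟩
  · have hp : pre Y L = pre X L := List.map_congr_left fun i hi => hY i (List.mem_range.mp hi)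
    exact run_pre_chi (L := L) (hp ▸ hL)
  · have h : {Y : ℕ → Bool | ∀ i < L, Y i = X i} = ⋂ i ∈ Finset.range L, {Y | Y i = X i} := by
      ext Y; simp
    rw [h]
    refine isOpen_biInter_finset fun i _ => ?_
    have hc : Continuous fun Y : ℕ → Bool => Y i := continuous_apply i
    exact hc.isOpen_preimage ({X i} : Set Bool) (isOpen_discrete _)

/-- The set where one functional maps one measurable map to another is measurable. -/
theorem measurableSet_comp {Ω : Type*} [MeasurableSpace Ω] (c : OCode) {F G : Ω → ℕ → Bool}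
    (hF : Measurable F) (hG : Measurable G) : MeasurableSet {w | Comp c (F w) (G w)} := by
  have h : {w | Comp c (F w) (G w)} = ⋂ n, ⋃ b : Bool,
      {w | G w n = b} ∩ F ⁻¹' {X | (if b then 1 else 0) ∈ c.run (chi X) n} := by
    ext w
    simp only [Set.mem_ofPred_eq, Set.mem_iInter, Set.mem_iUnion, Set.mem_inter_iff,
      Set.mem_preimage, exists_eq_left', Comp, chi, Part.eq_some_iff]
  rw [h]
  refine MeasurableSet.iInter fun n => MeasurableSet.iUnion fun b => MeasurableSet.inter ?_ ?_
  · exact (measurable_pi_apply n).comp hG (measurableSet_singleton b)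
  · have ho := measurableSet_mem_run c n (if b then 1 else 0)
    exact hF (ho.measurableSet)

end P327
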