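import Vale.Agent.P327.Approx

/-!
Bijections of bounded degree that respect Turing equivalence are computable.
-/

namespace P327

/-- The search for one bit of the image. -/
def bitAt (m : ℕ) (ev : ℕ → List Bool → ℕ → Option Bool) (p : List Bool) (n : ℕ) : Option Bool :=
  ((List.range p.length).filterMap fun s => vote m ev (p.take s.unpair.1) s.unpair.2 n).head?

/-- Append the next bit when it is the right place. -/
def grow (acc : List Bool) (i : ℕ) (o : Option Bool) : List Bool :=
  bif decide (acc.length = i) then (o.map fun v => acc ++ [v]).getD acc else acc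

/-- A known prefix of the image, from a prefix. -/
def step (m : ℕ) (ev : ℕ → List Bool → ℕ → Option Bool) (p : List Bool) : List Bool :=
  (List.range p.length).foldl (fun acc i => grow acc i (bitAt m ev p i)) []

/-- The iterate of `step`. -/
def steps (m : ℕ) (ev : ℕ → List Bool → ℕ → Option Bool) (p : List Bool) (n : ℕ) : List Bool :=
  Nat.rec p (fun _ q => step m ev q) n

section
variable {m : ℕ} {ev : ℕ → List Bool → ℕ → Option Bool} {T : (ℕ → Bool) → (ℕ → Bool)}

lemma bitAt_sound (hg : Good m ev T) {Y : ℕ → Bool} {s n : ℕ} {v : Bool}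
    (h : bitAt m ev (pre Y s) n = some v) : v = T Y n := by
  have hmem := List.mem_of_head? h
  obtain ⟨q, hq, hv⟩ := List.mem_filterMap.mp hmem
  have hq' : q < s := by simpa [pre] using hq
  rw [take_pre ((Nat.unpair_left_le q).trans hq'.le)] at hv
  exact vote_sound hg hv

lemma bitAt_complete (hg : Good m ev T) (Y : ℕ → Bool) (n : ℕ) :
    ∀ᶠ s in Filter.atTop, bitAt m ev (pre Y s) n = some (T Y n) := by
  obtain ⟨L, f, v, hv⟩ := vote_complete hg Y n
  filter_upwards [Filter.eventually_gt_atTop (Nat.pair L f)] with s hs
  obtain ⟨w, hw⟩ : ∃ w, bitAt m ev (pre Y s) n = some w := by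
    have hne : v ∈ (List.range (pre Y s).length).filterMap
        fun q => vote m ev ((pre Y s).take q.unpair.1) q.unpair.2 n := by
      refine List.mem_filterMap.mpr ⟨Nat.pair L f, by simpa [pre] using hs, ?_⟩
      rw [Nat.unpair_pair, take_pre (le_trans (Nat.left_le_pair L f) hs.le)]
      exact hv
    rw [bitAt]
    cases hl : List.filterMap
        (fun q => vote m ev ((pre Y s).take q.unpair.1) q.unpair.2 n)
        (List.range (pre Y s).length) with
    | nil => rw [hl] at hne; simp at hne
    | cons a as => exact ⟨a, rfl⟩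
  rw [hw, bitAt_sound hg hw]

lemma step_spec (hg : Good m ev T) (Y : ℕ → Bool) (s : ℕ) :
    ∃ r, step m ev (pre Y s) = pre (T Y) r ∧
      ∀ R ≤ s, (∀ i < R, bitAt m ev (pre Y s) i = some (T Y i)) → R ≤ r := by
  have hlen : (pre Y s).length = s := by simp [pre]
  simp only [step, hlen]
  have h : ∀ j, ∃ r, r ≤ j ∧
      (List.range j).foldl (fun acc i => grow acc i (bitAt m ev (pre Y s) i)) [] = pre (T Y) r ∧
      ∀ R ≤ j, (∀ i < R, bitAt m ev (pre Y s) i = some (T Y i)) → R ≤ r := by
    intro j
    induction j with
    | zero => exact ⟨0, le_rfl, by simp [pre], fun R hR _ => hR⟩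
    | succ j ih =>
      obtain ⟨r, hrj, hr, hR⟩ := ih
      rw [List.range_succ, List.foldl_append, hr, List.foldl_cons, List.foldl_nil]
      have hl : (pre (T Y) r).length = r := by simp [pre]
      simp only [grow, hl]
      by_cases hj : r = j
      · subst hj
        cases hb : bitAt m ev (pre Y s) r with
        | none =>
          refine ⟨r, Nat.le_succ r, by simp, fun R hR' hall => ?_⟩
          by_contra hcon
          have := hall r (by omega)
          rw [hb] at this
          simp at this
        | some v =>
          refine ⟨r + 1, le_rfl, ?_, fun R hR' _ => hR'⟩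
          simp [bitAt_sound hg hb, pre, List.range_succ]
      · refine ⟨r, hrj.trans (Nat.le_succ j), by simp [hj], fun R hR' hall => ?_⟩
        by_contra hcon
        have := hR (r + 1) (by omega) fun i hi => hall i (by omega)
        omega
  obtain ⟨r, -, hr, hR⟩ := h s
  exact ⟨r, hr, hR⟩

lemma steps_sound (hg : Good m ev T) (Y : ℕ → Bool) (s : ℕ) :
    ∀ n, ∃ r, steps m ev (pre Y s) n = pre (T^[n] Y) r := by
  intro n
  induction n with
  | zero => exact ⟨s, rfl⟩
  | succ n ih =>
    obtain ⟨r, hr⟩ := ih
    obtain ⟨r', hr', -⟩ := step_spec hg (T^[n] Y) r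
    refine ⟨r', ?_⟩
    rw [Function.iterate_succ_apply', ← hr', ← hr]
    rfl

lemma steps_complete (hg : Good m ev T) (Y : ℕ → Bool) :
    ∀ n R, ∀ᶠ s in Filter.atTop, R ≤ (steps m ev (pre Y s) n).length := by
  intro n
  induction n with
  | zero =>
    intro R
    filter_upwards [Filter.eventually_ge_atTop R] with s hs
    simpa [steps, pre] using hs
  | succ n ih =>
    intro R
    have h1 : ∀ᶠ r in Filter.atTop,
        R ≤ r ∧ ∀ i ∈ Finset.range R, bitAt m ev (pre (T^[n] Y) r) i = some (T (T^[n] Y) i) :=
      (Filter.eventually_ge_atTop R).and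
        ((Finset.range R).eventually_all.mpr fun i _ => bitAt_complete hg _ i)
    obtain ⟨R0, hR0⟩ := Filter.eventually_atTop.mp h1
    filter_upwards [ih R0] with s hs
    obtain ⟨r, hr⟩ := steps_sound hg Y s n
    rw [hr] at hs
    have hrR0 : R0 ≤ r := by simpa [pre] using hs
    obtain ⟨hRr, hall⟩ := hR0 r hrR0
    obtain ⟨r', hr', hlong⟩ := step_spec hg (T^[n] Y) r
    have hs' : steps m ev (pre Y s) (n + 1) = pre (T (T^[n] Y)) r' := by
      rw [← hr', ← hr]; rfl
    rw [hs']
    simpa [pre] using hlong R hRr fun i hi => hall i (Finset.mem_range.mpr hi)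

lemma steps_primrec (m : ℕ) {ev : ℕ → List Bool → ℕ → Option Bool}
    (hev : Primrec fun q : ℕ × List Bool × ℕ => ev q.1 q.2.1 q.2.2) :
    Primrec fun q : List Bool × ℕ => steps m ev q.1 q.2 := by
  have hv := vote_primrec m hev
  have hbit : Primrec fun q : List Bool × ℕ => bitAt m ev q.1 q.2 := by
    refine Primrec.list_head?.comp (Primrec.listFilterMap
      (Primrec.list_range.comp (Primrec.list_length.comp Primrec.fst)) ?_)
    exact (hv.comp (Primrec.pair
      (Primrec.list_take.comp (Primrec.fst.comp (Primrec.unpair.comp Primrec.snd))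
        (Primrec.fst.comp Primrec.fst))
      (Primrec.pair (Primrec.snd.comp (Primrec.unpair.comp Primrec.snd))
        (Primrec.snd.comp Primrec.fst)))).to₂
  have hstep : Primrec fun p : List Bool => step m ev p := by
    refine Primrec.list_foldl
      (h := fun (p : List Bool) (q : List Bool × ℕ) => grow q.1 q.2 (bitAt m ev p q.2))
      (Primrec.list_range.comp Primrec.list_length) (Primrec.const []) ?_
    have hacc : Primrec fun a : List Bool × List Bool × ℕ => a.2.1 :=
      Primrec.fst.comp Primrec.snd
    refine (Primrec.cond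
      (Primrec.eq.decide.comp (Primrec.list_length.comp hacc) (Primrec.snd.comp Primrec.snd))
      (Primrec.option_getD.comp
        (Primrec.option_map (hbit.comp (Primrec.pair Primrec.fst (Primrec.snd.comp Primrec.snd)))
          (Primrec.list_append.comp (hacc.comp Primrec.fst)
            (Primrec.list_cons.comp Primrec.snd (Primrec.const []))).to₂)
        hacc)
      hacc).to₂
  refine Primrec.nat_rec' (h := fun _ (q : ℕ × List Bool) => step m ev q.2)
    Primrec.snd Primrec.fst ?_
  exact (hstep.comp (Primrec.snd.comp Primrec.snd)).to₂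

end

/-- The left shift. -/
def tail (A : ℕ → Bool) : ℕ → Bool := fun n => A (n + 1)

lemma tail_iterate (A : ℕ → Bool) : ∀ n i, (tail^[n] A) i = A (i + n) := by
  intro n
  induction n with
  | zero => intro i; rfl
  | succ n ih =>
    intro i
    rw [Function.iterate_succ_apply', tail, ih]
    congr 1
    omega

lemma pre_get {A : ℕ → Bool} {s i : ℕ} {v : Bool} (h : (pre A s)[i]? = some v) : v = A i := by
  by_cases hi : i < s
  · simp [pre, hi] at h; exact h.symm
  · simp [pre, List.getElem?_eq_none (show (List.range s).length ≤ i by simpa using hi)] at h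

lemma tail_le (A : ℕ → Bool) : TuringReducible (chi (tail A)) (chi A) := by
  refine search_reduces (F := fun p n => p[n + 1]?)
    (Primrec.list_getElem?.comp Primrec.fst (Primrec.succ.comp Primrec.snd)).to_comp.to₂
    (fun s n v h => pre_get (A := A) (i := n + 1) h) fun n => ⟨n + 2, A (n + 1), by simp [pre]⟩

lemma le_tail (A : ℕ → Bool) : TuringReducible (chi A) (chi (tail A)) := by
  refine search_reduces
    (F := fun p n => bif decide (n = 0) then some (A 0) else p[n - 1]?)
    (Primrec.cond (Primrec.eq.decide.comp Primrec.snd (Primrec.const 0))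
      (Primrec.const (some (A 0)))
      (Primrec.list_getElem?.comp Primrec.fst
        (Primrec.nat_sub.comp Primrec.snd (Primrec.const 1)))).to_comp.to₂
    ?_ ?_
  · intro s n v h
    cases n with
    | zero => simpa using h.symm
    | succ k => simp at h; exact (pre_get (A := tail A) (i := k) h)
  · intro n
    cases n with
    | zero => exact ⟨0, A 0, by simp⟩
    | succ k => exact ⟨k + 1, A (k + 1), by simp [pre, tail]⟩

lemma deg_tail (A : ℕ → Bool) : deg (tail A) = deg A :=
  Quotient.sound (show AntisymmRel (· ≤ ·) (⟨tail A⟩ : NatSet) ⟨A⟩ from ⟨tail_le A, le_tail A⟩)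

lemma deg_le {A B : ℕ → Bool} : deg A ≤ deg B ↔ TuringReducible (chi A) (chi B) := Iff.rfl

/-- A bijection of bounded degree that keeps equivalent sets equivalent can be inverted
computably. -/
theorem reducible_image (d : ℕ) (h : (ℕ → Bool) ≃ (ℕ → Bool))
    (hd : ∀ n, (fun A => bit (h A n)) ∈ Pd d) (hd' : ∀ n, (fun A => bit (h.symm A n)) ∈ Pd d)
    (hinv : ∀ A, TuringReducible (chi (h (tail A))) (chi (h A))) (A : ℕ → Bool) :
    TuringReducible (chi A) (chi (h A)) := by
  classical
  let T : (ℕ → Bool) → (ℕ → Bool) := fun Y => h (tail (h.symm Y))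
  have hpoly : ∀ n, (fun Y => bit (T Y n)) ∈ Pd (d * d) := fun n =>
    comp_mem (G := fun Y => tail (h.symm Y)) (hd n) fun i => hd' (i + 1)
  have hT : ∀ Y, TuringReducible (chi (T Y)) (chi Y) := fun Y => by
    simpa [T] using hinv (h.symm Y)
  obtain ⟨ev, hg, hev⟩ := exists_ev hpoly hT
  obtain ⟨L0, hL0⟩ := finite_dep (hd' 0)
  let P0 : List (List Bool) :=
    ((Finset.univ.filter fun v : Fin L0 → Bool =>
      h.symm (fun i => if hi : i < L0 then v ⟨i, hi⟩ else false) 0 = true).image List.ofFn).toList
  let G : List Bool → Option Bool := fun q =>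
    bif decide (L0 ≤ q.length) then
      some (decide (@List.idxOf (List Bool) instBEqOfDecidableEq (q.take L0) P0 < P0.length))
    else none
  have hG : Primrec G :=
    Primrec.cond (Primrec.nat_le.decide.comp (Primrec.const L0) Primrec.list_length)
      (Primrec.option_some.comp (Primrec.nat_lt.decide.comp
        (Primrec.list_idxOf.comp (Primrec.list_take.comp (Primrec.const L0) Primrec.id)
          (Primrec.const P0)) (Primrec.const P0.length))) (Primrec.const none)
  have hGv : ∀ Z r, L0 ≤ r → G (pre Z r) = some (h.symm Z 0) := by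
    intro Z r hr
    have hlen : (pre Z r).length = r := by simp [pre]
    have hpre : pre Z L0 = List.ofFn fun i : Fin L0 => Z i := by
      simp [pre, List.ofFn_eq_map, ← List.map_coe_finRange_eq_range]
    simp only [G, hlen, hr, decide_true, cond_true, take_pre hr]
    congr 1
    rw [Bool.eq_iff_iff, decide_eq_true_iff,
      @List.idxOf_lt_length_iff (List Bool) instBEqOfDecidableEq _ _ _]
    simp only [P0, Finset.mem_toList, Finset.mem_image, Finset.mem_filter, Finset.mem_univ,
      true_and, hpre]
    have hext : h.symm (fun i => if hi : i < L0 then Z i else false) 0 = h.symm Z 0 :=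
      bit_inj (hL0 _ _ fun i hi => by simp [hi])
    constructor
    · rintro ⟨v, hv, hveq⟩
      have := List.ofFn_injective hveq
      subst this
      rw [← hext]; exact hv
    · intro hv
      exact ⟨fun i => Z i, by rw [← hext] at hv; exact hv, rfl⟩
  have hiter : ∀ n, T^[n] (h A) = h (tail^[n] A) := by
    intro n
    induction n with
    | zero => rfl
    | succ n ih =>
      rw [Function.iterate_succ_apply', ih, Function.iterate_succ_apply']
      simp [T]
  refine search_reduces (F := fun p n => G (steps (d * d + 1) ev p n))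
    (hG.comp (steps_primrec (d * d + 1) hev)).to_comp.to₂ ?_ ?_
  · intro s n v hv
    obtain ⟨r, hr⟩ := steps_sound hg (h A) s n
    rw [hr] at hv
    rcases Nat.lt_or_ge r L0 with hlt | hge
    · simp [G, pre, Nat.not_le.mpr hlt] at hv
    · rw [hGv _ _ hge, hiter, Equiv.symm_apply_apply, tail_iterate, Nat.zero_add] at hv
      exact (Option.some_injective _ hv).symm
  · intro n
    obtain ⟨s, hs⟩ := (steps_complete hg (h A) n L0).exists
    obtain ⟨r, hr⟩ := steps_sound hg (h A) s n
    rw [hr] at hs
    exact ⟨s, _, by rw [hr]; exact hGv _ _ (by simpa [pre] using hs)⟩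

/-- An automorphism induced by a bijection of bounded degree in both directions is the identity. -/
theorem induced_trivial (d : ℕ) (h : (ℕ → Bool) ≃ (ℕ → Bool))
    (hd : ∀ n, (fun A => bit (h A n)) ∈ Pd d) (hd' : ∀ n, (fun A => bit (h.symm A n)) ∈ Pd d)
    (π : SetDegree ≃o SetDegree) (hπ : ∀ A, π (deg A) = deg (h A)) :
    π = OrderIso.refl SetDegree := by
  have hπ' : ∀ B, π.symm (deg B) = deg (h.symm B) := fun B => by
    have hB := hπ (h.symm B)
    rw [Equiv.apply_symm_apply] at hB
    rw [← hB, OrderIso.symm_apply_apply]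
  have h1 : ∀ A, deg A ≤ deg (h A) := fun A => deg_le.mpr <| by
    refine reducible_image d h hd hd' (fun B => deg_le.mp ?_) A
    rw [← hπ, ← hπ, deg_tail]
  have h2 : ∀ A, deg A ≤ deg (h.symm A) := fun A => deg_le.mpr <| by
    refine reducible_image d h.symm hd' hd (fun B => deg_le.mp ?_) A
    rw [← hπ', ← hπ', deg_tail]
  ext x
  induction x using Antisymmetrization.ind with
  | _ a =>
    obtain ⟨A⟩ := a
    change π (deg A) = deg A
    rw [hπ]
    refine le_antisymm ?_ (h1 A)
    have := h2 (h A)
    rwa [Equiv.symm_apply_apply] at this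

end P327
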