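import Vale.Agent.P327.Defs

/-!
Oracle programs: enumeration, use principle, and search from prefixes of the oracle.
-/

namespace P327

/-- Programs with an oracle. -/
inductive OCode : Type
  | zero : OCode
  | succ : OCode
  | left : OCode
  | right : OCode
  | query : OCode
  | pair : OCode → OCode → OCode
  | comp : OCode → OCode → OCode
  | prec : OCode → OCode → OCode
  | rfind : OCode → OCode

namespace OCode

/-- A numbering of programs. -/
def enc : OCode → ℕ
  | .zero => Nat.pair 0 0
  | .succ => Nat.pair 1 0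
  | .left => Nat.pair 2 0
  | .right => Nat.pair 3 0
  | .query => Nat.pair 4 0
  | .pair f h => Nat.pair 5 (Nat.pair f.enc h.enc)
  | .comp f h => Nat.pair 6 (Nat.pair f.enc h.enc)
  | .prec f h => Nat.pair 7 (Nat.pair f.enc h.enc)
  | .rfind f => Nat.pair 8 f.enc

lemma enc_injective : Function.Injective enc := by
  intro c
  induction c with
  | zero | succ | left | right | query => intro d h; cases d <;> simp_all [enc, Nat.pair_eq_pair]
  | pair f h ihf ihh | comp f h ihf ihh | prec f h ihf ihh =>
    intro d hd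
    cases d <;> simp [enc, Nat.pair_eq_pair] at hd
    rw [ihf hd.1, ihh hd.2]
  | rfind f ihf =>
    intro d hd
    cases d <;> simp [enc, Nat.pair_eq_pair] at hd
    rw [ihf hd]

instance : Countable OCode := enc_injective.countable

/-- The function computed by a program from an oracle. -/
def run (o : ℕ →. ℕ) : OCode → ℕ →. ℕ
  | .zero => fun _ => Part.some 0
  | .succ => fun n => Part.some (n + 1)
  | .left => fun n => Part.some n.unpair.1
  | .right => fun n => Part.some n.unpair.2
  | .query => o
  | .pair f h => fun n => (run o f n).bind fun a => (run o h n).map (Nat.pair a)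
  | .comp f h => fun n => (run o h n).bind (run o f)
  | .prec f h => fun p =>
      (p.unpair.2).rec (run o f p.unpair.1) fun y IH =>
        IH.bind fun i => run o h (Nat.pair p.unpair.1 (Nat.pair y i))
  | .rfind f => fun a =>
      Nat.rfind fun k => (run o f (Nat.pair a k)).map fun m => decide (m = 0)

lemma exists_run {o f : ℕ →. ℕ} (hf : Nat.RecursiveIn {o} f) :
    ∃ c, ∀ n, run o c n = f n := by
  induction hf with
  | zero => exact ⟨.zero, fun n => rfl⟩
  | succ => exact ⟨.succ, fun n => rfl⟩
  | left => exact ⟨.left, fun n => rfl⟩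
  | right => exact ⟨.right, fun n => rfl⟩
  | oracle g hg => rw [Set.mem_singleton_iff] at hg; subst hg; exact ⟨.query, fun n => rfl⟩
  | @pair f h _ _ ihf ihh =>
    obtain ⟨a, ha⟩ := ihf
    obtain ⟨b, hb⟩ := ihh
    refine ⟨.pair a b, fun n => ?_⟩
    simp [run, ha, hb, Seq.seq, Part.bind_map]
  | @comp f h _ _ ihf ihh =>
    obtain ⟨a, ha⟩ := ihf
    obtain ⟨b, hb⟩ := ihh
    refine ⟨.comp a b, fun n => ?_⟩
    simp only [run, hb]
    exact congrArg _ (funext ha)
  | @prec f h _ _ ihf ihh =>
    obtain ⟨a, ha⟩ := ihf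
    obtain ⟨b, hb⟩ := ihh
    refine ⟨.prec a b, fun p => ?_⟩
    simp only [run, ha, hb]
    rfl
  | @rfind f _ ihf =>
    obtain ⟨a, ha⟩ := ihf
    refine ⟨.rfind a, fun p => ?_⟩
    simp only [run, ha]
    rfl

end OCode

/-- The prefix of length `L`. -/
def pre (A : ℕ → Bool) (L : ℕ) : List Bool := (List.range L).map A

/-- A finite oracle. -/
def listOr (l : List Bool) : ℕ →. ℕ :=
  fun n => Part.ofOption (l[n]?.map fun b => bif b then 1 else 0)

lemma mem_listOr_pre {A : ℕ → Bool} {L n v : ℕ} :
    v ∈ listOr (pre A L) n ↔ n < L ∧ v ∈ chi A n := by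
  rcases Nat.lt_or_ge n L with h | h
  · simp only [listOr, pre, chi, List.getElem?_map, List.getElem?_range h, Option.map_some,
      Part.coe_some, Part.ofOption, h, true_and]
    cases A n <;> simp
  · simp [listOr, pre, h]

lemma run_partrec (c : OCode) :
    Partrec₂ fun (l : List Bool) (n : ℕ) => c.run (listOr l) n := by
  induction c with
  | zero => exact (Computable.const 0).partrec.of_eq fun _ => rfl
  | succ => exact (Computable.succ.comp Computable.snd).partrec.of_eq fun _ => rfl
  | left =>
    exact (Computable.fst.comp (Computable.unpair.comp Computable.snd)).partrec.of_eq fun _ => rfl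
  | right =>
    exact (Computable.snd.comp (Computable.unpair.comp Computable.snd)).partrec.of_eq fun _ => rfl
  | query =>
    refine (Computable.ofOption ?_).of_eq fun _ => rfl
    exact (Primrec.option_map Primrec.list_getElem?
      (Primrec.cond Primrec.snd (Primrec.const 1) (Primrec.const 0)).to₂).to_comp
  | pair f h ihf ihh =>
    refine Partrec.bind ihf ?_
    exact Partrec.map (ihh.comp (Computable.fst.comp Computable.fst)
      (Computable.snd.comp Computable.fst))
      ((Primrec₂.natPair.to_comp.comp (Computable.snd.comp Computable.fst)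
        Computable.snd).to₂)
  | comp f h ihf ihh =>
    refine Partrec.bind ihh ?_
    exact ihf.comp (Computable.fst.comp Computable.fst) Computable.snd
  | prec f h ihf ihh =>
    refine (Partrec.nat_rec (h := fun (a : List Bool × ℕ) (q : ℕ × ℕ) =>
        h.run (listOr a.1) (Nat.pair a.2.unpair.1 (Nat.pair q.1 q.2)))
      (Computable.snd.comp (Computable.unpair.comp Computable.snd))
      (ihf.comp Computable.fst (Computable.fst.comp (Computable.unpair.comp Computable.snd)))
      ?_).of_eq fun _ => rfl
    exact ihh.comp (Computable.fst.comp Computable.fst)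
      (Primrec₂.natPair.to_comp.comp
        (Computable.fst.comp (Computable.unpair.comp (Computable.snd.comp Computable.fst)))
        (Primrec₂.natPair.to_comp.comp (Computable.fst.comp Computable.snd)
          (Computable.snd.comp Computable.snd)))
  | rfind f ihf =>
    refine Partrec.rfind ?_
    refine Partrec.map (ihf.comp (Computable.fst.comp Computable.fst)
      (Primrec₂.natPair.to_comp.comp (Computable.snd.comp Computable.fst) Computable.snd)) ?_
    exact ((Primrec.eq.decide.comp Primrec.snd (Primrec.const 0)).to_comp).to₂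

lemma run_mono {o o' : ℕ →. ℕ} (ho : ∀ n v, v ∈ o n → v ∈ o' n) (c : OCode) :
    ∀ n v, v ∈ c.run o n → v ∈ c.run o' n := by
  induction c with
  | zero | succ | left | right => intro n v h; exact h
  | query => exact ho
  | pair f h ihf ihh =>
    intro n v hv
    simp only [OCode.run, Part.mem_bind_iff, Part.mem_map_iff] at hv ⊢
    obtain ⟨a, ha, b, hb, rfl⟩ := hv
    exact ⟨a, ihf _ _ ha, b, ihh _ _ hb, rfl⟩
  | comp f h ihf ihh =>
    intro n v hv
    rw [OCode.run] at hv ⊢
    obtain ⟨a, ha, hb⟩ := Part.mem_bind_iff.mp hv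
    exact Part.mem_bind_iff.mpr ⟨a, ihh _ _ ha, ihf _ _ hb⟩
  | prec f h ihf ihh =>
    intro p v hv
    simp only [OCode.run] at hv ⊢
    revert hv v
    induction p.unpair.2 with
    | zero => intro v hv; exact ihf _ _ hv
    | succ y ih =>
      intro v hv
      simp only [Part.mem_bind_iff] at hv ⊢
      obtain ⟨i, hi, hb⟩ := hv
      exact ⟨i, ih _ hi, ihh _ _ hb⟩
  | rfind f ihf =>
    intro a v hv
    rw [OCode.run] at hv ⊢
    obtain ⟨h0, hlt⟩ := Nat.mem_rfind.mp hv
    obtain ⟨x, hx, hx'⟩ := (Part.mem_map_iff _).mp h0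
    refine Nat.mem_rfind.mpr ⟨(Part.mem_map_iff _).mpr ⟨x, ihf _ _ hx, hx'⟩, fun {m} hm => ?_⟩
    obtain ⟨y, hy, hy'⟩ := (Part.mem_map_iff _).mp (hlt hm)
    exact (Part.mem_map_iff _).mpr ⟨y, ihf _ _ hy, hy'⟩

lemma run_pre_mono {A : ℕ → Bool} {c : OCode} {n v L M : ℕ} (hLM : L ≤ M)
    (h : v ∈ c.run (listOr (pre A L)) n) : v ∈ c.run (listOr (pre A M)) n :=
  run_mono (fun k w hk => by
    rw [mem_listOr_pre] at hk ⊢
    exact ⟨lt_of_lt_of_le hk.1 hLM, hk.2⟩) c n v h

lemma run_pre_chi {A : ℕ → Bool} {c : OCode} {n v L : ℕ}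
    (h : v ∈ c.run (listOr (pre A L)) n) : v ∈ c.run (chi A) n :=
  run_mono (fun _ _ hk => (mem_listOr_pre.mp hk).2) c n v h

open Filter in
lemma run_use (A : ℕ → Bool) (c : OCode) :
    ∀ n v, v ∈ c.run (chi A) n → ∀ᶠ L in atTop, v ∈ c.run (listOr (pre A L)) n := by
  induction c with
  | zero | succ | left | right => intro n v h; exact Eventually.of_forall fun _ => h
  | query =>
    intro n v hv
    filter_upwards [eventually_gt_atTop n] with L hL
    exact mem_listOr_pre.mpr ⟨hL, hv⟩
  | pair f h ihf ihh =>
    intro n v hv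
    simp only [OCode.run, Part.mem_bind_iff, Part.mem_map_iff] at hv ⊢
    obtain ⟨a, ha, b, hb, rfl⟩ := hv
    filter_upwards [ihf _ _ ha, ihh _ _ hb] with L h1 h2
    exact ⟨a, h1, b, h2, rfl⟩
  | comp f h ihf ihh =>
    intro n v hv
    rw [OCode.run] at hv
    obtain ⟨a, ha, hb⟩ := Part.mem_bind_iff.mp hv
    filter_upwards [ihh _ _ ha, ihf _ _ hb] with L h1 h2
    rw [OCode.run]
    exact Part.mem_bind_iff.mpr ⟨a, h1, h2⟩
  | prec f h ihf ihh =>
    intro p v hv
    simp only [OCode.run] at hv ⊢
    revert hv v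
    induction p.unpair.2 with
    | zero => intro v hv; exact ihf _ _ hv
    | succ y ih =>
      intro v hv
      simp only [Part.mem_bind_iff] at hv ⊢
      obtain ⟨i, hi, hb⟩ := hv
      filter_upwards [ih _ hi, ihh _ _ hb] with L h1 h2
      exact ⟨i, h1, h2⟩
  | rfind f ihf =>
    intro a v hv
    rw [OCode.run] at hv
    obtain ⟨h0, hlt⟩ := Nat.mem_rfind.mp hv
    obtain ⟨x, hx, hx'⟩ := (Part.mem_map_iff _).mp h0
    choose! y hy hy' using fun m (hm : m < v) => (Part.mem_map_iff _).mp (hlt hm)
    have hall : ∀ᶠ L in atTop, ∀ m ∈ Finset.range v,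
        y m ∈ f.run (listOr (pre A L)) (Nat.pair a m) :=
      (Finset.range v).eventually_all.mpr fun m hm =>
        ihf _ _ (hy m (Finset.mem_range.mp hm))
    filter_upwards [ihf _ _ hx, hall] with L h1 h2
    rw [OCode.run]
    exact Nat.mem_rfind.mpr ⟨(Part.mem_map_iff _).mpr ⟨x, h1, hx'⟩, fun {m} hm =>
      (Part.mem_map_iff _).mpr ⟨y m, h2 m (Finset.mem_range.mpr hm), hy' m hm⟩⟩

lemma pre_recursiveIn (Y : ℕ → Bool) :
    Nat.RecursiveIn {chi Y} fun n => Part.some (Encodable.encode (pre Y n)) := by
  have ho : Nat.RecursiveIn {chi Y} (chi Y) := .oracle _ rfl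
  let app : ℕ → ℕ := fun p => Encodable.encode
    (((Encodable.decode (α := List Bool) p.unpair.2).getD []) ++ [decide (p.unpair.1 = 1)])
  have happ : Computable app := by
    refine (Primrec.encode.comp ?_).to_comp
    refine Primrec.list_append.comp
      (Primrec.option_getD.comp (Primrec.decode.comp (Primrec.snd.comp Primrec.unpair))
        (Primrec.const [])) ?_
    exact Primrec.list_cons.comp
      (Primrec.eq.decide.comp (Primrec.fst.comp Primrec.unpair) (Primrec.const 1))
      (Primrec.const [])
  have happ' : Nat.RecursiveIn {chi Y} fun p => Part.some (app p) :=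
    Nat.Partrec.recursiveIn (Partrec.nat_iff.mp happ.partrec)
  have hstep := Nat.RecursiveIn.comp happ'
    (Nat.RecursiveIn.pair
      (Nat.RecursiveIn.comp ho (Nat.RecursiveIn.comp Nat.RecursiveIn.left Nat.RecursiveIn.right))
      (Nat.RecursiveIn.comp Nat.RecursiveIn.right Nat.RecursiveIn.right))
  have hz : Nat.RecursiveIn {chi Y}
      (fun _ => Part.some (Encodable.encode ([] : List Bool))) :=
    Nat.Partrec.recursiveIn (Partrec.nat_iff.mp (Computable.const _).partrec)
  have hid : Nat.RecursiveIn {chi Y} (fun n => Part.some n) :=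
    Nat.Partrec.recursiveIn (Partrec.nat_iff.mp Computable.id.partrec)
  refine ((Nat.RecursiveIn.prec hz hstep).comp
    (Nat.RecursiveIn.pair (Nat.Partrec.recursiveIn (f := fun _ : ℕ => Part.some 0)
      (Partrec.nat_iff.mp (Computable.const 0).partrec)) hid)).of_eq fun n => ?_
  simp [Seq.seq]
  induction n with
  | zero => simp [pre]
  | succ k ih =>
    have hk : (Part.some k >>= chi Y) = Part.some (if Y k then 1 else 0) := Part.bind_some k (chi Y)
    simp only [ih, hk, Part.bind_some]
    simp [pre, app, List.range_succ]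

/-- A sound and complete search on prefixes of the oracle gives a reduction. -/
theorem search_reduces {Y A : ℕ → Bool} {F : List Bool → ℕ → Option Bool} (hF : Computable₂ F)
    (hsound : ∀ s n v, F (pre Y s) n = some v → v = A n)
    (hcomplete : ∀ n, ∃ s v, F (pre Y s) n = some v) :
    TuringReducible (chi A) (chi Y) := by
  rw [TuringReducible, RecursiveIn.iff_nat]
  let dec : ℕ → List Bool := fun p => (Encodable.decode p).getD []
  have hdec : Computable dec :=
    (Primrec.option_getD.comp Primrec.decode (Primrec.const [])).to_comp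
  let test : ℕ → ℕ := fun p =>
    bif (F (dec p.unpair.2) p.unpair.1.unpair.1).isSome then 0 else 1
  let out : ℕ → ℕ := fun p =>
    bif (F (dec p.unpair.2) p.unpair.1).getD false then 1 else 0
  have hl : Computable fun p : ℕ => p.unpair.1 := (Primrec.fst.comp Primrec.unpair).to_comp
  have hr : Computable fun p : ℕ => p.unpair.2 := (Primrec.snd.comp Primrec.unpair).to_comp
  have htest : Computable test := by
    refine Computable.cond ?_ (Computable.const 0) (Computable.const 1)
    exact Primrec.option_isSome.to_comp.comp (hF.comp (hdec.comp hr) (hl.comp hl))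
  have hout : Computable out := by
    refine Computable.cond ?_ (Computable.const 1) (Computable.const 0)
    exact Primrec.option_getD.to_comp.comp (hF.comp (hdec.comp hr) hl) (Computable.const false)
  have hp := pre_recursiveIn Y
  have hid : Nat.RecursiveIn {chi Y} (fun n => Part.some n) :=
    Nat.Partrec.recursiveIn (Partrec.nat_iff.mp Computable.id.partrec)
  have h1 := Nat.RecursiveIn.comp
    (Nat.Partrec.recursiveIn (Partrec.nat_iff.mp htest.partrec) :
      Nat.RecursiveIn {chi Y} fun p => Part.some (test p))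
    (Nat.RecursiveIn.pair hid (Nat.RecursiveIn.comp hp Nat.RecursiveIn.right))
  have h2 := Nat.RecursiveIn.comp
    (Nat.Partrec.recursiveIn (Partrec.nat_iff.mp hout.partrec) :
      Nat.RecursiveIn {chi Y} fun p => Part.some (out p))
    (Nat.RecursiveIn.pair hid (Nat.RecursiveIn.comp hp (Nat.RecursiveIn.rfind h1)))
  refine h2.of_eq_tot fun n => ?_
  obtain ⟨s, hs, hmin⟩ : ∃ s, (F (pre Y s) n).isSome ∧
      ∀ m < s, (F (pre Y m) n).isSome = false := by
    classical
    have hex : ∃ s, (F (pre Y s) n).isSome := by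
      obtain ⟨s, v, h⟩ := hcomplete n
      exact ⟨s, by simp [h]⟩
    exact ⟨Nat.find hex, Nat.find_spec hex,
      fun m hm => Bool.eq_false_iff.mpr (Nat.find_min hex hm)⟩
  obtain ⟨v, hv⟩ := Option.isSome_iff_exists.mp hs
  simp [Seq.seq, test, dec]
  have hrf : s ∈ Nat.rfind fun k =>
      Part.some (decide ((bif (F (pre Y k) n).isSome then 0 else 1) = 0)) :=
    Nat.mem_rfind.mpr ⟨by simp [hv], fun {m} hm => by simp [hmin m hm]⟩
  rw [Part.eq_some_iff.mpr hrf]
  simp [out, dec, hv, ← hsound s n v hv]

end P327
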