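import Vale.Agent.P327.Poly
import Vale.Agent.P327.Oracle

/-!
The fair product measure on sequences and cubes through a point.
-/

namespace P327

open MeasureTheory

/-- The uniform measure on a finite type. -/
noncomputable def uni (X : Type) [Fintype X] [Nonempty X] [MeasurableSpace X] : Measure X :=
  (PMF.uniformOfFintype X).toMeasure

instance (X : Type) [Fintype X] [Nonempty X] [MeasurableSpace X] :
    IsProbabilityMeasure (uni X) := by
  unfold uni; infer_instance

/-- The fair product measure on sequences. -/
noncomputable def nu (X : Type) [Fintype X] [Nonempty X] [MeasurableSpace X] :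
    Measure (ℕ → X) :=
  Measure.infinitePi fun _ : ℕ => uni X

instance (X : Type) [Fintype X] [Nonempty X] [MeasurableSpace X] :
    IsProbabilityMeasure (nu X) := by
  unfold nu; infer_instance

variable {X : Type} [Fintype X] [Nonempty X] [MeasurableSpace X] [MeasurableSingletonClass X]

/-- Restriction to the first `L` coordinates. -/
def restr (L : ℕ) (w : ℕ → X) : Fin L → X := fun i => w i

omit [Fintype X] [Nonempty X] [MeasurableSingletonClass X] in
lemma measurable_restr (L : ℕ) : Measurable (restr (X := X) L) := by
  unfold restr; fun_prop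

lemma uni_singleton (x : X) : uni X {x} = (Fintype.card X : ENNReal)⁻¹ := by
  rw [uni, PMF.toMeasure_apply_singleton _ _ (measurableSet_singleton _),
    PMF.uniformOfFintype_apply]

lemma nu_point (L : ℕ) (v : Fin L → X) :
    nu X (restr L ⁻¹' {v}) = ((Fintype.card X : ENNReal) ^ L)⁻¹ := by
  classical
  let t : ℕ → Set X := fun i => if h : i < L then {v ⟨i, h⟩} else Set.univ
  have hset : restr L ⁻¹' {v} = (↑(Finset.range L) : Set ℕ).pi t := by
    ext w
    simp only [Set.mem_preimage, Set.mem_singleton_iff, Set.mem_pi, Finset.coe_range, Set.mem_Iio,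
      funext_iff, restr]
    constructor
    · intro h i hi; simp [t, hi, ← h ⟨i, hi⟩]
    · intro h i; have := h i i.2; simpa [t, i.2] using this
  rw [hset, nu, Measure.infinitePi_pi _ (fun i hi => by
    simp [t, Finset.mem_range.mp hi]), Finset.prod_congr rfl (g := fun _ =>
      (Fintype.card X : ENNReal)⁻¹) (fun i hi => by
    simp [t, Finset.mem_range.mp hi, uni_singleton]), Finset.prod_const, Finset.card_range,
    ENNReal.inv_pow]

lemma nu_prefix (L : ℕ) (S : Finset (Fin L → X)) :
    nu X (restr L ⁻¹' ↑S) = (S.card : ENNReal) / (Fintype.card X : ENNReal) ^ L := by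
  rw [← sum_measure_preimage_singleton S fun v _ =>
    measurable_restr L (measurableSet_singleton v)]
  simp [nu_point, div_eq_mul_inv]

omit [Fintype X] [Nonempty X] in
lemma measurable_of_dep [Finite X] {P : (ℕ → X) → Prop} (L : ℕ)
    (h : ∀ u w, (∀ i < L, u i = w i) → (P u ↔ P w)) : MeasurableSet {w | P w} := by
  have hset : {w | P w} = restr L ⁻¹' (restr L '' {w | P w}) := by
    ext w
    refine ⟨fun hw => ⟨w, hw, rfl⟩, fun ⟨u, hu, huw⟩ => ?_⟩
    exact (h u w fun i hi => congrFun huw ⟨i, hi⟩).mp hu
  rw [hset]
  exact measurable_restr L (Set.toFinite _).measurableSet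

lemma map_par {m : ℕ} (y : Bool) (t : Fin m → Bool) (j : Fin m) (hj : t j = true) :
    (uni (Fin m → Bool)).map (fun v => xor y (par t v)) = uni Bool := by
  classical
  let fl : (Fin m → Bool) → (Fin m → Bool) := fun v => Function.update v j (!(v j))
  have hfl : Function.Involutive fl := by
    intro v; funext i; by_cases h : i = j <;> simp [fl, h]
  have hpar : ∀ v, par t (fl v) = !(par t v) := by
    intro v
    apply bit_inj
    have hnot : ∀ b, bit (!b) = 1 + bit b := by decide
    rw [hnot, bit_par, bit_par, ← Finset.add_sum_erase _ _ (Finset.mem_univ j),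
      ← Finset.add_sum_erase (f := fun i => bit (t i && v i)) _ (Finset.mem_univ j), ← add_assoc]
    congr 1
    · simp only [fl, Function.update_self, hj, Bool.true_and, hnot]
    · refine Finset.sum_congr rfl fun i hi => ?_
      simp [fl, Function.update_of_ne (Finset.ne_of_mem_erase hi)]
  let A : Bool → Finset (Fin m → Bool) :=
    fun b => Finset.univ.filter fun v => xor y (par t v) = b
  have hAB : ∀ b, (A b).card = (A (!b)).card := by
    intro b
    refine Finset.card_nbij' fl fl ?_ ?_ (fun v _ => hfl v) (fun v _ => hfl v)
    · intro v hv; simp [A] at hv ⊢; rw [hpar, ← hv]; simp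
    · intro v hv; simp [A] at hv ⊢; rw [hpar]; simp [hv]
  have htot : (A true).card + (A false).card = Fintype.card (Fin m → Bool) := by
    have h : A false = Finset.univ.filter fun v => ¬ (xor y (par t v) = true) := by
      ext v; simp [A]
    rw [h]
    exact Finset.card_filter_add_card_filter_not _
  refine Measure.ext_of_singleton fun b => ?_
  rw [Measure.map_apply (measurable_of_finite _) (measurableSet_singleton b), uni_singleton]
  have hb : (fun v => xor y (par t v)) ⁻¹' {b} = (↑(A b) : Set (Fin m → Bool)) := by
    ext v; simp [A]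
  rw [hb, uni, PMF.toMeasure_apply_finset]
  have h2 : Fintype.card (Fin m → Bool) = 2 * (A b).card := by
    have h3 := hAB true
    simp only [Bool.not_true] at h3
    cases b <;> omega
  have hpos : (A b).card ≠ 0 := by
    intro h
    rw [h] at h2
    exact Fintype.card_ne_zero h2
  simp only [PMF.uniformOfFintype_apply, Finset.sum_const, nsmul_eq_mul]
  rw [h2, Fintype.card_bool]
  push_cast
  rw [ENNReal.mul_inv (by simp) (by simp), mul_left_comm,
    ENNReal.mul_inv_cancel (by exact_mod_cast hpos) (by simp), mul_one]

lemma pt_preserving {m : ℕ} (Y : ℕ → Bool) (t : Fin m → Bool) (ht : t ≠ fun _ => false) :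
    MeasurePreserving (fun w => pt Y w t) (nu (Fin m → Bool)) (nu Bool) := by
  obtain ⟨j, hj⟩ := Function.ne_iff.mp ht
  have hj' : t j = true := by simpa using hj
  have hmeas : Measurable fun w : ℕ → Fin m → Bool => pt Y w t := by
    refine measurable_pi_lambda _ fun i => ?_
    exact (measurable_of_finite (fun v : Fin m → Bool => xor (Y i) (par t v))).comp
      (measurable_pi_apply i)
  refine ⟨hmeas, ?_⟩
  rw [nu, nu]
  refine (Measure.infinitePi_map_pi (f := fun i v => xor (Y i) (par t v))
    (fun _ : ℕ => uni (Fin m → Bool)) fun i => measurable_of_finite _).trans ?_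
  congr 1
  funext i
  exact map_par (Y i) t j hj'

end P327
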