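import Vale.Agent.P327.Defs

/-!
Functions on Cantor space given by polynomials of bounded degree, and the cube identity.
-/

namespace P327

/-- Translation in Cantor space. -/
def shift (A G : ℕ → Bool) : ℕ → Bool := fun i => xor (A i) (G i)

/-- A monomial. -/
def mon (S : Finset ℕ) (A : ℕ → Bool) : ZMod 2 := ∏ i ∈ S, bit (A i)

/-- Polynomials of degree at most `d`. -/
def Pd (d : ℕ) : Submodule (ZMod 2) ((ℕ → Bool) → ZMod 2) :=
  Submodule.span (ZMod 2) (mon '' {S | S.card ≤ d})

lemma zmod2_cases : ∀ x : ZMod 2, x = 0 ∨ x = 1 := by decide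

lemma bit_xor : ∀ a b : Bool, bit (xor a b) = bit a + bit b := by decide

lemma bit_mul_self : ∀ a : Bool, bit a * bit a = bit a := by decide

lemma bit_inj : ∀ {a b : Bool}, bit a = bit b → a = b := by decide

lemma mon_mem {d : ℕ} {S : Finset ℕ} (h : S.card ≤ d) : mon S ∈ Pd d :=
  Submodule.subset_span ⟨S, h, rfl⟩

lemma Pd_mono {a b : ℕ} (h : a ≤ b) : Pd a ≤ Pd b :=
  Submodule.span_mono (Set.image_mono fun _ hS => le_trans hS h)

lemma mon_empty : mon ∅ = 1 := by
  funext A; simp [mon]

lemma one_mem (d : ℕ) : (1 : (ℕ → Bool) → ZMod 2) ∈ Pd d := by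
  rw [← mon_empty]; exact mon_mem (by simp)

lemma mon_mul (S T : Finset ℕ) : mon S * mon T = mon (S ∪ T) := by
  induction S using Finset.induction with
  | empty => simp [mon_empty]
  | @insert a S ha ih =>
    have h1 : mon (insert a S) = (fun A => bit (A a)) * mon S := by
      funext A; simp [mon, Finset.prod_insert ha]
    rw [h1, mul_assoc, ih, Finset.insert_union]
    funext A
    by_cases hm : a ∈ S ∪ T
    · rw [Finset.insert_eq_of_mem hm]
      simp only [Pi.mul_apply, mon]
      rw [← Finset.mul_prod_erase _ _ hm, ← mul_assoc, bit_mul_self]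
    · simp [mon, Finset.prod_insert hm]

lemma mul_mem {a b : ℕ} {f g : (ℕ → Bool) → ZMod 2} (hf : f ∈ Pd a) (hg : g ∈ Pd b) :
    f * g ∈ Pd (a + b) := by
  induction hf using Submodule.span_induction with
  | mem x hx =>
    obtain ⟨S, hS, rfl⟩ := hx
    induction hg using Submodule.span_induction with
    | mem y hy =>
      obtain ⟨T, hT, rfl⟩ := hy
      rw [mon_mul]
      exact mon_mem ((Finset.card_union_le _ _).trans (add_le_add hS hT))
    | zero => rw [mul_zero]; exact zero_mem _
    | add y z _ _ hy hz => rw [mul_add]; exact add_mem hy hz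
    | smul c y _ hy => rw [mul_smul_comm]; exact Submodule.smul_mem _ c hy
  | zero => rw [zero_mul]; exact zero_mem _
  | add y z _ _ hy hz => rw [add_mul]; exact add_mem hy hz
  | smul c y _ hy => rw [smul_mul_assoc]; exact Submodule.smul_mem _ c hy

lemma prod_mem {ι : Type*} (S : Finset ι) {b : ℕ} (f : ι → (ℕ → Bool) → ZMod 2)
    (hf : ∀ i ∈ S, f i ∈ Pd b) : (∏ i ∈ S, f i) ∈ Pd (S.card * b) := by
  classical
  induction S using Finset.induction with
  | empty => simpa using one_mem 0
  | @insert a S ha ih =>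
    rw [Finset.prod_insert ha, Finset.card_insert_of_notMem ha]
    have := mul_mem (hf a (Finset.mem_insert_self a S))
      (ih fun i hi => hf i (Finset.mem_insert_of_mem hi))
    rwa [add_mul, one_mul, add_comm]

lemma degree_iff {d : ℕ} {F : (ℕ → Bool) → (ℕ → Bool)} (hF : DegreeLE d F) (n : ℕ) :
    (fun A => bit (F A n)) ∈ Pd d := by
  obtain ⟨M, hM, hev⟩ := hF n
  have h : (fun A => bit (F A n)) = ∑ S ∈ M, mon S := by
    funext A; simp [hev A, mon, Finset.sum_apply]
  rw [h]
  exact sum_mem fun S hS => mon_mem (hM S hS)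

lemma comp_mem {a b : ℕ} {f : (ℕ → Bool) → ZMod 2} {G : (ℕ → Bool) → (ℕ → Bool)}
    (hf : f ∈ Pd a) (hG : ∀ i, (fun A => bit (G A i)) ∈ Pd b) :
    (fun A => f (G A)) ∈ Pd (a * b) := by
  induction hf using Submodule.span_induction with
  | mem x hx =>
    obtain ⟨S, hS, rfl⟩ := hx
    have h : (fun A => mon S (G A)) = ∏ i ∈ S, (fun A => bit (G A i)) := by
      funext A; simp [mon, Finset.prod_apply]
    rw [h]
    exact Pd_mono (Nat.mul_le_mul_right b hS) (prod_mem S _ fun i _ => hG i)
  | zero => exact zero_mem _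
  | add y z _ _ hy hz => exact add_mem hy hz
  | smul c y _ hy => exact Submodule.smul_mem _ c hy

lemma finite_dep {d : ℕ} {f : (ℕ → Bool) → ZMod 2} (hf : f ∈ Pd d) :
    ∃ L, ∀ A B, (∀ i < L, A i = B i) → f A = f B := by
  induction hf using Submodule.span_induction with
  | mem x hx =>
    obtain ⟨S, -, rfl⟩ := hx
    refine ⟨S.sup id + 1, fun A B h => Finset.prod_congr rfl fun i hi => ?_⟩
    rw [h i (Nat.lt_succ_of_le (Finset.le_sup (f := id) hi))]
  | zero => exact ⟨0, fun _ _ _ => rfl⟩
  | add y z _ _ hy hz =>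
    obtain ⟨L, hL⟩ := hy
    obtain ⟨L', hL'⟩ := hz
    refine ⟨max L L', fun A B h => ?_⟩
    simp only [Pi.add_apply]
    rw [hL A B fun i hi => h i (lt_of_lt_of_le hi (le_max_left _ _)),
      hL' A B fun i hi => h i (lt_of_lt_of_le hi (le_max_right _ _))]
  | smul c y _ hy =>
    obtain ⟨L, hL⟩ := hy
    exact ⟨L, fun A B h => by simp only [Pi.smul_apply]; rw [hL A B h]⟩

/-- A difference lowers the degree; degree zero gives a zero difference. -/
def diff (G : ℕ → Bool) (f : (ℕ → Bool) → ZMod 2) : (ℕ → Bool) → ZMod 2 :=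
  fun A => f (shift A G) + f A

lemma mon_diff (G : ℕ → Bool) : ∀ S : Finset ℕ,
    (S = ∅ ∧ diff G (mon S) = 0) ∨
      (S.card ≠ 0 ∧ diff G (mon S) ∈ Pd (S.card - 1)) := by
  intro S
  induction S using Finset.induction with
  | empty => left; refine ⟨rfl, ?_⟩; funext A; simp [diff, mon]; decide
  | @insert a S ha ih =>
    right
    rw [Finset.card_insert_of_notMem ha]
    refine ⟨by omega, ?_⟩
    rw [Nat.add_sub_cancel]
    have key : diff G (mon (insert a S)) =
        bit (G a) • mon S + (fun A => bit (shift A G a)) * diff G (mon S) := by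
      funext A
      simp only [diff, mon, Finset.prod_insert ha, Pi.add_apply, Pi.mul_apply,
        Pi.smul_apply, smul_eq_mul, shift, bit_xor]
      generalize bit (A a) = x
      generalize bit (G a) = g
      generalize (∏ i ∈ S, (bit (A i) + bit (G i))) = p
      generalize (∏ i ∈ S, bit (A i)) = q
      revert x g p q
      decide
    rw [key]
    refine add_mem (Submodule.smul_mem _ _ (mon_mem le_rfl)) ?_
    rcases ih with ⟨-, h0⟩ | ⟨hne, hmem⟩
    · rw [h0, mul_zero]; exact zero_mem _
    · have h1 : (fun A => bit (shift A G a)) ∈ Pd 1 := by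
        have h2 : (fun A => bit (shift A G a)) = mon {a} + bit (G a) • 1 := by
          funext A; simp [mon, shift, bit_xor]
        rw [h2]
        exact add_mem (mon_mem (by simp)) (Submodule.smul_mem _ _ (one_mem 1))
      exact Pd_mono (by omega) (mul_mem h1 hmem)

lemma diff_add (G : ℕ → Bool) (f g : (ℕ → Bool) → ZMod 2) :
    diff G (f + g) = diff G f + diff G g := by
  funext A; simp only [diff, Pi.add_apply]; ring

lemma diff_mem {d : ℕ} (G : ℕ → Bool) {f : (ℕ → Bool) → ZMod 2} (hf : f ∈ Pd (d + 1)) :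
    diff G f ∈ Pd d := by
  induction hf using Submodule.span_induction with
  | mem x hx =>
    obtain ⟨S, hS, rfl⟩ := hx
    rcases mon_diff G S with ⟨-, h⟩ | ⟨-, h⟩
    · rw [h]; exact zero_mem _
    · exact Pd_mono (by simp at hS; omega) h
  | zero => convert zero_mem (Pd d) using 1; funext A; simp [diff]
  | add y z _ _ hy hz => rw [diff_add]; exact add_mem hy hz
  | smul c y _ hy =>
    convert Submodule.smul_mem _ c hy using 1
    funext A; simp [diff, mul_add]

lemma diff_zero (G : ℕ → Bool) {f : (ℕ → Bool) → ZMod 2} (hf : f ∈ Pd 0) :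
    diff G f = 0 := by
  induction hf using Submodule.span_induction with
  | mem x hx =>
    obtain ⟨S, hS, rfl⟩ := hx
    rcases mon_diff G S with ⟨-, h⟩ | ⟨hne, -⟩
    · exact h
    · simp at hS; exact absurd (by simp [hS]) hne
  | zero => funext A; simp [diff]
  | add y z _ _ hy hz => rw [diff_add, hy, hz, add_zero]
  | smul c y _ hy =>
    funext A
    have := congrFun hy A
    simp only [diff, Pi.smul_apply, smul_eq_mul, Pi.zero_apply] at this ⊢
    rw [← mul_add, this, mul_zero]

/-- The parity of the coordinates selected by `t`. -/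
def par {m : ℕ} (t v : Fin m → Bool) : Bool :=
  decide ((∑ j, bit (t j && v j)) = 1)

/-- A vertex of a cube. -/
def pt {m : ℕ} (A : ℕ → Bool) (G : ℕ → Fin m → Bool) (t : Fin m → Bool) : ℕ → Bool :=
  fun i => xor (A i) (par t (G i))

lemma bit_decide : ∀ x : ZMod 2, bit (decide (x = 1)) = x := by decide

lemma bit_par {m : ℕ} (t v : Fin m → Bool) : bit (par t v) = ∑ j, bit (t j && v j) :=
  bit_decide _

lemma pt_cons {m : ℕ} (A : ℕ → Bool) (G : ℕ → Fin (m + 1) → Bool) (b : Bool)
    (t : Fin m → Bool) :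
    pt A G (Fin.cons b t) =
      pt (if b then shift A (fun i => G i 0) else A) (fun i => Fin.tail (G i)) t := by
  funext i
  apply bit_inj
  simp only [pt, bit_xor, bit_par, Fin.sum_univ_succ, Fin.cons_zero, Fin.cons_succ]
  cases b
  · simp [Fin.tail, bit]
  · simp only [if_true, shift, Fin.tail, bit_xor, Bool.true_and]
    rw [add_assoc]

lemma pt_shift {m : ℕ} (A H : ℕ → Bool) (G : ℕ → Fin m → Bool) (t : Fin m → Bool) :
    pt (shift A H) G t = shift (pt A G t) H := by
  funext i
  simp [pt, shift, Bool.xor_assoc, Bool.xor_comm (H i)]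

/-- A polynomial of degree less than the dimension sums to zero over a cube. -/
theorem cube_sum : ∀ (m d : ℕ), d < m → ∀ f ∈ Pd d,
    ∀ (A : ℕ → Bool) (G : ℕ → Fin m → Bool), ∑ t : Fin m → Bool, f (pt A G t) = 0 := by
  intro m
  induction m with
  | zero => intro d hd; omega
  | succ m ih =>
    intro d hd f hf A G
    rw [← Equiv.sum_comp (Fin.consEquiv fun _ => Bool) (fun t => f (pt A G t)),
      Fintype.sum_prod_type, Fintype.sum_bool, ← Finset.sum_add_distrib]
    have h : ∀ t : Fin m → Bool, f (pt A G (Fin.cons true t)) + f (pt A G (Fin.cons false t))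
        = diff (fun i => G i 0) f (pt A (fun i => Fin.tail (G i)) t) := by
      intro t
      simp [pt_cons, diff, pt_shift]
    refine (Finset.sum_congr rfl fun t _ => h t).trans ?_
    cases d with
    | zero => simp [diff_zero _ hf]
    | succ d => exact ih d (by omega) _ (diff_mem _ hf) A _

lemma sum_ne_zero {m : ℕ} (f : (ℕ → Bool) → ZMod 2) (A : ℕ → Bool)
    (G : ℕ → Fin m → Bool) (h : ∑ t : Fin m → Bool, f (pt A G t) = 0) :
    f A = ∑ t ∈ Finset.univ.erase (fun _ => false), f (pt A G t) := by
  rw [← Finset.add_sum_erase _ _ (Finset.mem_univ (fun _ : Fin m => false))] at h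
  have h0 : pt A G (fun _ => false) = A := by
    funext i
    apply bit_inj
    simp only [pt, bit_xor, bit_par, Bool.false_and]
    simp [bit]
  rw [h0] at h
  generalize f A = x at h ⊢
  generalize (∑ t ∈ Finset.univ.erase _, f (pt A G t)) = y at h ⊢
  revert x y
  decide

lemma local_degree {k : ℕ} {F : (ℕ → Bool) → (ℕ → Bool)} (hF : LocalLE k F) (n : ℕ) :
    (fun A => bit (F A n)) ∈ Pd k := by
  classical
  obtain ⟨S, hS, hdep⟩ := hF n
  let ext : ({i // i ∈ S} → Bool) → ℕ → Bool :=
    fun v i => if hi : i ∈ S then v ⟨i, hi⟩ else false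
  have key : (fun A => bit (F A n)) = ∑ v : {i // i ∈ S} → Bool,
      bit (F (ext v) n) • ∏ i : {i // i ∈ S}, (mon {(i : ℕ)} + bit (!(v i)) • 1) := by
    funext A
    rw [Finset.sum_apply, Finset.sum_eq_single (fun i : {i // i ∈ S} => A i)]
    · rw [Pi.smul_apply, Finset.prod_apply, Finset.prod_eq_one, smul_eq_mul, mul_one]
      · rw [hdep A (ext fun i => A i) fun i hi => by simp [ext, hi]]
      · intro i _; simp [mon]; cases A i <;> decide
    · intro v _ hv
      obtain ⟨i, hi⟩ := Function.ne_iff.mp hv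
      rw [Pi.smul_apply, Finset.prod_apply, Finset.prod_eq_zero (Finset.mem_univ i), smul_zero]
      simp [mon]; revert hi; cases v i <;> cases A i <;> decide
    · simp
  rw [key]
  refine sum_mem fun v _ => Submodule.smul_mem _ _ ?_
  refine Pd_mono (a := (Finset.univ : Finset {i // i ∈ S}).card * 1) (by simpa using hS) ?_
  exact prod_mem _ _ fun i _ =>
    add_mem (mon_mem (by simp)) (Submodule.smul_mem _ _ (one_mem 1))

end P327
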