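import Vale.Agent.P327.Measure

/-!
The majority vote over cubes.
-/

namespace P327

open MeasureTheory

/-- Parity of the bits of `k` in block `i`, selected by the bits of `t`. -/
def parNat (m t k i : ℕ) : Bool :=
  ((List.range m).map fun j => t.testBit j && k.testBit (i * m + j)).foldl xor false

/-- The prefix of one vertex of the cube number `k`. -/
def vert (m : ℕ) (p : List Bool) (t k : ℕ) : List Bool :=
  (List.range p.length).map fun i => xor ((p[i]?).getD false) (parNat m t k i)

/-- The values at the nonzero vertices of cube number `k`. -/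
def vals (m : ℕ) (ev : ℕ → List Bool → ℕ → Option Bool) (p : List Bool) (f n k : ℕ) :
    List (Option Bool) :=
  (List.range (2 ^ m - 1)).map fun t => ev f (vert m p (t + 1) k) n

/-- All values are present and their parity is `v`. -/
def votesFor (m : ℕ) (ev : ℕ → List Bool → ℕ → Option Bool) (p : List Bool) (f n : ℕ) (v : Bool)
    (k : ℕ) : Bool :=
  (vals m ev p f n k).foldl (fun b o => b && o.isSome) true &&
    ((vals m ev p f n k).map fun o => o.getD false).foldl xor false == v

/-- The number of votes for `v`. -/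
def count (m : ℕ) (ev : ℕ → List Bool → ℕ → Option Bool) (p : List Bool) (f n : ℕ) (v : Bool) : ℕ :=
  (List.range (2 ^ (m * p.length))).foldl
    (fun c k => bif votesFor m ev p f n v k then c + 1 else c) 0

/-- The value with more than half of all votes, if there is one. -/
def vote (m : ℕ) (ev : ℕ → List Bool → ℕ → Option Bool) (p : List Bool) (f n : ℕ) : Option Bool :=
  bif decide (2 ^ (m * p.length) < 2 * count m ev p f n true) then some true
  else bif decide (2 ^ (m * p.length) < 2 * count m ev p f n false) then some false else none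

/-- The bit vector of `t`. -/
def tb (m t : ℕ) : Fin m → Bool := fun j => t.testBit j

/-- The cube with number `k`. -/
def cubeOf (m L k : ℕ) : Fin L → Fin m → Bool := fun i j => k.testBit ((i : ℕ) * m + (j : ℕ))

lemma tb_injective (m : ℕ) : Set.InjOn (tb m) {t | t < 2 ^ m} := by
  intro a ha b hb hab
  refine Nat.eq_of_testBit_eq fun i => ?_
  rcases lt_or_ge i m with hi | hi
  · exact congrFun hab ⟨i, hi⟩
  · have hp : 2 ^ m ≤ 2 ^ i := Nat.pow_le_pow_right (by omega) hi
    rw [Nat.testBit_lt_two_pow (lt_of_lt_of_le ha hp), Nat.testBit_lt_two_pow (lt_of_lt_of_le hb hp)]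

lemma tb_ne_zero {m t : ℕ} (h0 : 0 < t) (ht : t < 2 ^ m) : tb m t ≠ fun _ => false := by
  intro h
  have : t = 0 := tb_injective m ht (show 0 < 2 ^ m by positivity)
    (h.trans (by funext j; simp [tb]))
  omega

lemma cubeOf_injective (m L : ℕ) : Set.InjOn (cubeOf m L) {k | k < 2 ^ (m * L)} := by
  intro a ha b hb hab
  refine Nat.eq_of_testBit_eq fun q => ?_
  rcases lt_or_ge q (m * L) with hq | hq
  · have hm : 0 < m := by
      rcases Nat.eq_zero_or_pos m with h | h
      · simp [h] at hq
      · exact h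
    have hi : q / m < L := Nat.div_lt_of_lt_mul hq
    have := congrFun (congrFun hab ⟨q / m, hi⟩) ⟨q % m, Nat.mod_lt _ hm⟩
    simpa [cubeOf, Nat.div_add_mod'] using this
  · have hp : 2 ^ (m * L) ≤ 2 ^ q := Nat.pow_le_pow_right (by omega) hq
    rw [Nat.testBit_lt_two_pow (lt_of_lt_of_le ha hp), Nat.testBit_lt_two_pow (lt_of_lt_of_le hb hp)]

lemma bit_foldl : ∀ (l : List Bool) (a : Bool), bit (l.foldl xor a) = bit a + (l.map bit).sum := by
  intro l
  induction l with
  | nil => simp
  | cons b l ih => intro a; simp [ih, bit_xor, add_assoc]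

lemma range_sum {M : Type*} [AddCommMonoid M] (f : ℕ → M) (n : ℕ) :
    ((List.range n).map f).sum = ∑ i ∈ Finset.range n, f i := by
  induction n with
  | zero => simp
  | succ n ih => rw [List.range_succ, List.map_append, List.sum_append, ih, Finset.sum_range_succ]; simp

lemma parNat_eq (m t k L : ℕ) (i : Fin L) : parNat m t k i = par (tb m t) (cubeOf m L k i) := by
  apply bit_inj
  rw [parNat, bit_foldl, bit_par, List.map_map, range_sum, Finset.sum_range]
  simp [tb, cubeOf, bit]

lemma vert_eq {m L t k : ℕ} (Y : ℕ → Bool) (w : ℕ → Fin m → Bool)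
    (hw : restr L w = cubeOf m L k) :
    vert m (pre Y L) t k = pre (pt Y w (tb m t)) L := by
  simp only [vert, pre, List.length_map, List.length_range]
  refine List.map_congr_left fun i hi => ?_
  have hi' : i < L := List.mem_range.mp hi
  rw [parNat_eq m t k L ⟨i, hi'⟩, ← congrFun hw ⟨i, hi'⟩]
  simp [pt, restr, hi']

lemma foldl_isSome : ∀ (l : List (Option Bool)) (a : Bool),
    l.foldl (fun b o => b && o.isSome) a = true ↔ a = true ∧ ∀ o ∈ l, o.isSome := by
  intro l
  induction l with
  | nil => simp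
  | cons b l ih => intro a; simp [ih, and_assoc]

lemma count_eq (m : ℕ) (ev : ℕ → List Bool → ℕ → Option Bool) (p : List Bool) (f n : ℕ) (v : Bool) :
    count m ev p f n v =
      ((Finset.range (2 ^ (m * p.length))).filter fun k => votesFor m ev p f n v k = true).card := by
  rw [count]
  generalize 2 ^ (m * p.length) = N
  induction N with
  | zero => simp
  | succ N ih =>
    rw [List.range_succ, List.foldl_append, ih, Finset.range_add_one, Finset.filter_insert]
    cases hN : votesFor m ev p f n v N <;> simp [hN]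

/-- A cube votes for `v`. -/
def Voting (m : ℕ) (ev : ℕ → List Bool → ℕ → Option Bool) (Y : ℕ → Bool) (L f n : ℕ) (v : Bool)
    (w : ℕ → Fin m → Bool) : Prop :=
  ∃ u : ℕ → Bool, (∀ t, 0 < t → t < 2 ^ m → ev f (pre (pt Y w (tb m t)) L) n = some (u t)) ∧
    bit v = ∑ t ∈ Finset.range (2 ^ m - 1), bit (u (t + 1))

lemma votesFor_iff {m L k : ℕ} {ev : ℕ → List Bool → ℕ → Option Bool} (Y : ℕ → Bool) (f n : ℕ)
    (v : Bool) (w : ℕ → Fin m → Bool) (hw : restr L w = cubeOf m L k) :
    votesFor m ev (pre Y L) f n v k = true ↔ Voting m ev Y L f n v w := by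
  simp only [votesFor, Bool.and_eq_true, foldl_isSome, vals, List.mem_map, List.mem_range,
    beq_iff_eq, true_and, forall_exists_index, and_imp, forall_apply_eq_imp_iff₂, vert_eq Y w hw]
  constructor
  · rintro ⟨hs, hp⟩
    refine ⟨fun t => (ev f (pre (pt Y w (tb m t)) L) n).getD false, fun t h0 ht => ?_, ?_⟩
    · have hs' := hs (t - 1) (by omega)
      rw [show t - 1 + 1 = t by omega] at hs'
      obtain ⟨b, hb⟩ := Option.isSome_iff_exists.mp hs'
      simp [hb]
    · rw [← hp, bit_foldl, List.map_map, List.map_map, range_sum]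
      simp [bit]
  · rintro ⟨u, hu, hv⟩
    refine ⟨fun t ht => by simp [hu (t + 1) (by omega) (by omega)], bit_inj ?_⟩
    rw [hv, bit_foldl, List.map_map, List.map_map, range_sum]
    simp only [bit, Bool.false_eq_true, if_false, zero_add, Function.comp]
    refine Finset.sum_congr rfl fun t ht => ?_
    have hlt := Finset.mem_range.mp ht
    simp [hu (t + 1) (by omega) (by omega)]

lemma measure_voting (m : ℕ) (ev : ℕ → List Bool → ℕ → Option Bool) (Y : ℕ → Bool) (L f n : ℕ)
    (v : Bool) :
    nu (Fin m → Bool) {w | Voting m ev Y L f n v w} =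
      (count m ev (pre Y L) f n v : ENNReal) / ((2 ^ (m * L) : ℕ) : ENNReal) := by
  classical
  have hlen : (pre Y L).length = L := by simp [pre]
  let R := (Finset.range (2 ^ (m * L))).filter fun k => votesFor m ev (pre Y L) f n v k = true
  have hinj : Set.InjOn (cubeOf m L) ↑R :=
    (cubeOf_injective m L).mono fun k hk => Finset.mem_range.mp (Finset.mem_filter.mp hk).1
  have hall : (Finset.range (2 ^ (m * L))).image (cubeOf m L) = Finset.univ := by
    refine Finset.eq_univ_of_card _ ?_
    rw [Finset.card_image_of_injOn ((cubeOf_injective m L).mono fun k hk => by simpa using hk)]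
    simp [pow_mul]
  have hset : {w | Voting m ev Y L f n v w} = restr L ⁻¹' ↑(R.image (cubeOf m L)) := by
    ext w
    simp only [Set.mem_setOf_eq, Set.mem_preimage, Finset.mem_coe, Finset.mem_image]
    constructor
    · intro h
      have hmem := Finset.mem_univ (restr L w)
      rw [← hall, Finset.mem_image] at hmem
      obtain ⟨k, hk, hkw⟩ := hmem
      exact ⟨k, Finset.mem_filter.mpr ⟨hk, (votesFor_iff Y f n v w hkw.symm).mpr h⟩, hkw⟩
    · rintro ⟨k, hk, hkw⟩
      exact (votesFor_iff Y f n v w hkw.symm).mp (Finset.mem_filter.mp hk).2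
  rw [hset, nu_prefix, Finset.card_image_of_injOn hinj, count_eq, hlen]
  congr 1
  simp [pow_mul]

lemma sum_tb {M : Type*} [AddCommMonoid M] (m : ℕ) (f : (Fin m → Bool) → M) :
    ∑ t ∈ Finset.univ.erase (fun _ => false), f t =
      ∑ t ∈ Finset.range (2 ^ m - 1), f (tb m (t + 1)) := by
  classical
  have hinj : Set.InjOn (fun t => tb m (t + 1)) ↑(Finset.range (2 ^ m - 1)) := by
    intro a ha b hb h
    simp only [Finset.coe_range, Set.mem_Iio] at ha hb
    have := tb_injective m (show a + 1 < 2 ^ m by omega) (show b + 1 < 2 ^ m by omega) h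
    omega
  have himg : (Finset.range (2 ^ m - 1)).image (fun t => tb m (t + 1)) =
      Finset.univ.erase (fun _ => false) := by
    refine Finset.eq_of_subset_of_card_le ?_ ?_
    · intro x hx
      obtain ⟨t, ht, rfl⟩ := Finset.mem_image.mp hx
      have := Finset.mem_range.mp ht
      exact Finset.mem_erase.mpr ⟨tb_ne_zero (by omega) (by omega), Finset.mem_univ _⟩
    · rw [Finset.card_image_of_injOn hinj, Finset.card_erase_of_mem (Finset.mem_univ _)]
      simp
  rw [← himg, Finset.sum_image hinj]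

/-- What the evaluation must satisfy. -/
structure Good (m : ℕ) (ev : ℕ → List Bool → ℕ → Option Bool)
    (T : (ℕ → Bool) → (ℕ → Bool)) : Prop where
  mono_fuel : ∀ {f f' l n v}, f ≤ f' → ev f l n = some v → ev f' l n = some v
  mono_pre : ∀ {f Z L L' n v}, L ≤ L' → ev f (pre Z L) n = some v →
    ∃ f', ev f' (pre Z L') n = some v
  cube : ∀ n, ∃ d, d < m ∧ (fun Z => bit (T Z n)) ∈ Pd d
  small : ∃ E : Set (ℕ → Bool), MeasurableSet E ∧
    nu Bool Eᶜ * (2 ^ m + 1) * 2 < 1 ∧ ∀ Z ∈ E, ∀ n, ∃ L f, ev f (pre Z L) n = some (T Z n)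

lemma Good.unique {m : ℕ} {ev : ℕ → List Bool → ℕ → Option Bool} {T : (ℕ → Bool) → (ℕ → Bool)}
    (hg : Good m ev T) {Z : ℕ → Bool} {n L L' f f' : ℕ} {a b : Bool}
    (ha : ev f (pre Z L) n = some a) (hb : ev f' (pre Z L') n = some b) : a = b := by
  obtain ⟨F, hF⟩ := hg.mono_pre (le_max_left L L') ha
  obtain ⟨G, hG⟩ := hg.mono_pre (le_max_right L L') hb
  have h1 := hg.mono_fuel (le_max_left F G) hF
  have h2 := hg.mono_fuel (le_max_right F G) hG
  rw [h1] at h2
  exact Option.some_injective _ h2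

lemma cubes_good {m : ℕ} {ev : ℕ → List Bool → ℕ → Option Bool} {T : (ℕ → Bool) → (ℕ → Bool)}
    (hg : Good m ev T) (Y : ℕ → Bool) :
    ∃ Gd : Set (ℕ → Fin m → Bool), 1 / 2 < nu (Fin m → Bool) Gd ∧ MeasurableSet Gd ∧
      ∀ w ∈ Gd, ∀ t, 0 < t → t < 2 ^ m → ∀ n, ∃ L f,
        ev f (pre (pt Y w (tb m t)) L) n = some (T (pt Y w (tb m t)) n) := by
  classical
  obtain ⟨E, hEm, hEs, hE⟩ := hg.small
  let Gd : Set (ℕ → Fin m → Bool) :=
    ⋂ t ∈ Finset.range (2 ^ m - 1), (fun w => pt Y w (tb m (t + 1))) ⁻¹' E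
  have hpres : ∀ t, t < 2 ^ m - 1 →
      MeasurePreserving (fun w => pt Y w (tb m (t + 1))) (nu (Fin m → Bool)) (nu Bool) :=
    fun t ht => pt_preserving Y _ (tb_ne_zero (by omega) (by omega))
  have hmeas : MeasurableSet Gd :=
    Finset.measurableSet_biInter _ fun t ht => (hpres t (Finset.mem_range.mp ht)).measurable hEm
  refine ⟨Gd, ?_, hmeas, ?_⟩
  · have hc : nu (Fin m → Bool) Gdᶜ ≤ (2 ^ m + 1) * nu Bool Eᶜ := by
      simp only [Gd, Set.compl_iInter]
      refine (measure_biUnion_finset_le _ _).trans ?_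
      have hterm : ∀ t ∈ Finset.range (2 ^ m - 1),
          nu (Fin m → Bool) ((fun w => pt Y w (tb m (t + 1))) ⁻¹' E)ᶜ = nu Bool Eᶜ := by
        intro t ht
        rw [← Set.preimage_compl]
        exact (hpres t (Finset.mem_range.mp ht)).measure_preimage hEm.compl.nullMeasurableSet
      rw [Finset.sum_congr rfl hterm, Finset.sum_const, Finset.card_range, nsmul_eq_mul]
      gcongr
      calc ((2 ^ m - 1 : ℕ) : ENNReal) ≤ ((2 ^ m + 1 : ℕ) : ENNReal) := by
            exact_mod_cast (Nat.sub_le (2 ^ m) 1).trans (Nat.le_succ _)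
        _ = 2 ^ m + 1 := by push_cast; rfl
    have hlt : nu (Fin m → Bool) Gdᶜ < 1 / 2 := by
      refine lt_of_le_of_lt hc ?_
      rw [ENNReal.lt_div_iff_mul_lt (by simp) (by simp), mul_comm ((2 : ENNReal) ^ m + 1)]
      exact hEs
    by_contra hcon
    have h1 := measure_add_measure_compl (μ := nu (Fin m → Bool)) hmeas
    rw [measure_univ] at h1
    have h2 : nu (Fin m → Bool) Gd + nu (Fin m → Bool) Gdᶜ < 1 / 2 + 1 / 2 :=
      ENNReal.add_lt_add_of_le_of_lt (by simp) (not_lt.mp hcon) hlt
    rw [h1, ENNReal.add_halves] at h2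
    exact lt_irrefl _ h2
  · intro w hw t h0 ht n
    simp only [Gd, Set.mem_iInter, Set.mem_preimage, Finset.mem_range] at hw
    have := hw (t - 1) (by omega)
    rw [show t - 1 + 1 = t by omega] at this
    exact hE _ this n

lemma cube_value {m : ℕ} {T : (ℕ → Bool) → (ℕ → Bool)} {n d : ℕ} (hd : d < m)
    (hT : (fun Z => bit (T Z n)) ∈ Pd d) (Y : ℕ → Bool) (w : ℕ → Fin m → Bool) :
    bit (T Y n) = ∑ t ∈ Finset.range (2 ^ m - 1), bit (T (pt Y w (tb m (t + 1))) n) := by
  rw [sum_ne_zero (fun Z => bit (T Z n)) Y w (cube_sum m d hd _ hT Y w)]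
  exact sum_tb m fun t => bit (T (pt Y w t) n)

lemma half_lt {m : ℕ} {ev : ℕ → List Bool → ℕ → Option Bool} {Y : ℕ → Bool} {L f n : ℕ} {v : Bool} :
    1 / 2 < nu (Fin m → Bool) {w | Voting m ev Y L f n v w} ↔
      2 ^ (m * L) < 2 * count m ev (pre Y L) f n v := by
  rw [measure_voting, ENNReal.lt_div_iff_mul_lt (by simp) (by simp), one_div,
    ← ENNReal.div_eq_inv_mul, ENNReal.div_lt_iff (by simp) (by simp), mul_comm (2 : ℕ)]
  constructor <;> intro h <;> exact_mod_cast h

theorem vote_sound {m : ℕ} {ev : ℕ → List Bool → ℕ → Option Bool} {T : (ℕ → Bool) → (ℕ → Bool)}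
    (hg : Good m ev T) {Y : ℕ → Bool} {L f n : ℕ} {v : Bool}
    (h : vote m ev (pre Y L) f n = some v) : v = T Y n := by
  have hlen : (pre Y L).length = L := by simp [pre]
  have hmaj : 2 ^ (m * L) < 2 * count m ev (pre Y L) f n v := by
    simp only [vote, hlen] at h
    by_cases h1 : 2 ^ (m * L) < 2 * count m ev (pre Y L) f n true
    · simp [h1] at h; subst h; exact h1
    · by_cases h2 : 2 ^ (m * L) < 2 * count m ev (pre Y L) f n false
      · simp [h1, h2] at h; subst h; exact h2
      · simp [h1, h2] at h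
  have hV := half_lt.mpr hmaj
  obtain ⟨Gd, hGd, hGm, hGw⟩ := cubes_good hg Y
  have hne : ({w | Voting m ev Y L f n v w} ∩ Gd).Nonempty := by
    by_contra he
    rw [Set.not_nonempty_iff_eq_empty, ← Set.disjoint_iff_inter_eq_empty] at he
    have h2 := measure_union (μ := nu (Fin m → Bool)) he hGm
    have h3 : (1 : ENNReal) < nu (Fin m → Bool) ({w | Voting m ev Y L f n v w} ∪ Gd) := by
      rw [h2, ← ENNReal.add_halves 1]
      exact ENNReal.add_lt_add hV hGd
    exact not_le.mpr h3 prob_le_one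
  obtain ⟨w, ⟨u, hu, hv⟩, hwG⟩ := hne
  obtain ⟨d, hd, hT⟩ := hg.cube n
  refine bit_inj ?_
  rw [hv, cube_value hd hT Y w]
  refine Finset.sum_congr rfl fun t ht => ?_
  have := Finset.mem_range.mp ht
  obtain ⟨L', f', h'⟩ := hGw w hwG (t + 1) (by omega) (by omega) n
  rw [hg.unique (hu (t + 1) (by omega) (by omega)) h']

theorem vote_complete {m : ℕ} {ev : ℕ → List Bool → ℕ → Option Bool} {T : (ℕ → Bool) → (ℕ → Bool)}
    (hg : Good m ev T) (Y : ℕ → Bool) (n : ℕ) : ∃ L f v, vote m ev (pre Y L) f n = some v := by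
  classical
  obtain ⟨Gd, hGd, -, hGw⟩ := cubes_good hg Y
  obtain ⟨d, hd, hT⟩ := hg.cube n
  let B : ℕ → Set (ℕ → Fin m → Bool) := fun j =>
    {w | Voting m ev Y j.unpair.1 j.unpair.2 n (T Y n) w}
  let C : ℕ → Set (ℕ → Fin m → Bool) := fun L =>
    {w | ∀ t, 0 < t → t < 2 ^ m → ∃ f,
      ev f (pre (pt Y w (tb m t)) L) n = some (T (pt Y w (tb m t)) n)}
  have hmono : Monotone C := by
    intro L L' hLL w hw t h0 ht
    obtain ⟨f, hf⟩ := hw t h0 ht
    exact hg.mono_pre hLL hf
  have hsub : Gd ⊆ ⋃ L, C L := by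
    intro w hw
    choose! Ls fs hs using fun t (h : 0 < t ∧ t < 2 ^ m) => hGw w hw t h.1 h.2 n
    refine Set.mem_iUnion.mpr ⟨(Finset.range (2 ^ m)).sup Ls, fun t h0 ht => ?_⟩
    exact hg.mono_pre (Finset.le_sup (Finset.mem_range.mpr ht)) (hs t ⟨h0, ht⟩)
  have hC : 1 / 2 < nu (Fin m → Bool) (⋃ L, C L) := lt_of_lt_of_le hGd (measure_mono hsub)
  rw [hmono.measure_iUnion, lt_iSup_iff] at hC
  obtain ⟨L, hL⟩ := hC
  have hfuel : C L ⊆ ⋃ f, {w | Voting m ev Y L f n (T Y n) w} := by
    intro w hw
    choose! fs hs using fun t (h : 0 < t ∧ t < 2 ^ m) => hw t h.1 h.2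
    refine Set.mem_iUnion.mpr ⟨(Finset.range (2 ^ m)).sup fs,
      fun t => T (pt Y w (tb m t)) n, fun t h0 ht => ?_, ?_⟩
    · exact hg.mono_fuel (Finset.le_sup (Finset.mem_range.mpr ht)) (hs t ⟨h0, ht⟩)
    · exact cube_value hd hT Y w
  have hmono2 : Monotone fun f => {w | Voting m ev Y L f n (T Y n) w} := by
    rintro f f' hff w ⟨u, hu, hv⟩
    exact ⟨u, fun t h0 ht => hg.mono_fuel hff (hu t h0 ht), hv⟩
  have hF := lt_of_lt_of_le hL (measure_mono hfuel)
  rw [hmono2.measure_iUnion, lt_iSup_iff] at hF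
  obtain ⟨f, hf⟩ := hF
  have hmaj := half_lt.mp hf
  refine ⟨L, f, ?_⟩
  have hlen : (pre Y L).length = L := by simp [pre]
  simp only [vote, hlen]
  by_cases h1 : 2 ^ (m * L) < 2 * count m ev (pre Y L) f n true
  · exact ⟨true, by simp [h1]⟩
  · cases hv : T Y n with
    | true => rw [hv] at hmaj; exact absurd hmaj h1
    | false => rw [hv] at hmaj; exact ⟨false, by simp [h1, hmaj]⟩

lemma primrec_pow : Primrec₂ (fun a b : ℕ => a ^ b) := by
  refine (Primrec.nat_rec' Primrec.snd (Primrec.const 1)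
    (Primrec.nat_mul.comp (Primrec.snd.comp Primrec.snd)
      (Primrec.fst.comp Primrec.fst)).to₂).of_eq fun p => ?_
  induction p.2 with
  | zero => simp
  | succ k ih => simp [pow_succ, ih]

lemma primrec_testBit : Primrec₂ Nat.testBit := by
  refine (Primrec.eq.decide.comp (Primrec.nat_mod.comp (Primrec.nat_div.comp Primrec.fst
    (primrec_pow.comp (Primrec.const 2) Primrec.snd)) (Primrec.const 2))
    (Primrec.const 1)).of_eq fun p => ?_
  simp [Nat.testBit_eq_decide_div_mod_eq]

lemma primrec_xor : Primrec₂ xor := by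
  refine (Primrec.cond Primrec.fst (Primrec.not.comp Primrec.snd) Primrec.snd).of_eq fun p => ?_
  cases p.1 <;> simp

theorem vote_primrec (m : ℕ) {ev : ℕ → List Bool → ℕ → Option Bool}
    (hev : Primrec fun q : ℕ × List Bool × ℕ => ev q.1 q.2.1 q.2.2) :
    Primrec fun q : List Bool × ℕ × ℕ => vote m ev q.1 q.2.1 q.2.2 := by
  have hpar : Primrec fun q : ℕ × ℕ × ℕ => parNat m q.1 q.2.1 q.2.2 := by
    refine Primrec.list_foldl (Primrec.list_map (Primrec.const (List.range m)) ?_)
      (Primrec.const false) (primrec_xor.comp (Primrec.fst.comp Primrec.snd)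
        (Primrec.snd.comp Primrec.snd)).to₂
    exact (Primrec.and.comp
      (primrec_testBit.comp (Primrec.fst.comp Primrec.fst) Primrec.snd)
      (primrec_testBit.comp (Primrec.fst.comp (Primrec.snd.comp Primrec.fst))
        (Primrec.nat_add.comp (Primrec.nat_mul.comp
          (Primrec.snd.comp (Primrec.snd.comp Primrec.fst)) (Primrec.const m)) Primrec.snd))).to₂
  have hvert : Primrec fun q : List Bool × ℕ × ℕ => vert m q.1 q.2.1 q.2.2 := by
    refine Primrec.list_map (Primrec.list_range.comp (Primrec.list_length.comp Primrec.fst)) ?_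
    exact (primrec_xor.comp
      (Primrec.option_getD.comp
        (Primrec.list_getElem?.comp (Primrec.fst.comp Primrec.fst) Primrec.snd)
        (Primrec.const false))
      (hpar.comp (Primrec.pair (Primrec.fst.comp (Primrec.snd.comp Primrec.fst))
        (Primrec.pair (Primrec.snd.comp (Primrec.snd.comp Primrec.fst)) Primrec.snd)))).to₂
  have hvals : Primrec fun q : (List Bool × ℕ × ℕ) × ℕ => vals m ev q.1.1 q.1.2.1 q.1.2.2 q.2 := by
    refine Primrec.list_map (Primrec.const (List.range (2 ^ m - 1))) ?_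
    exact (hev.comp (Primrec.pair (Primrec.fst.comp (Primrec.snd.comp
        (Primrec.fst.comp Primrec.fst)))
      (Primrec.pair (hvert.comp (Primrec.pair (Primrec.fst.comp (Primrec.fst.comp Primrec.fst))
          (Primrec.pair (Primrec.succ.comp Primrec.snd) (Primrec.snd.comp Primrec.fst))))
        (Primrec.snd.comp (Primrec.snd.comp (Primrec.fst.comp Primrec.fst)))))).to₂
  have hfor : Primrec fun q : ((List Bool × ℕ × ℕ) × Bool) × ℕ =>
      votesFor m ev q.1.1.1 q.1.1.2.1 q.1.1.2.2 q.1.2 q.2 := by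
    have hv := hvals.comp (Primrec.pair
      (Primrec.fst.comp (Primrec.fst (α := (List Bool × ℕ × ℕ) × Bool) (β := ℕ)))
      (Primrec.snd (α := (List Bool × ℕ × ℕ) × Bool) (β := ℕ)))
    refine Primrec.and.comp
      (Primrec.list_foldl (h := fun _ (q : Bool × Option Bool) => q.1 && q.2.isSome) hv
        (Primrec.const true) (Primrec.and.comp (Primrec.fst.comp Primrec.snd)
        (Primrec.option_isSome.comp (Primrec.snd.comp Primrec.snd))).to₂)
      (Primrec.beq.comp ?_ (Primrec.snd.comp Primrec.fst))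
    refine Primrec.list_foldl (Primrec.list_map hv
      (Primrec.option_getD.comp Primrec.snd (Primrec.const false)).to₂)
      (Primrec.const false) (primrec_xor.comp (Primrec.fst.comp Primrec.snd)
        (Primrec.snd.comp Primrec.snd)).to₂
  have hpw : Primrec fun q : List Bool × ℕ × ℕ => 2 ^ (m * q.1.length) :=
    primrec_pow.comp (Primrec.const 2)
      (Primrec.nat_mul.comp (Primrec.const m) (Primrec.list_length.comp Primrec.fst))
  have hcount : Primrec fun q : (List Bool × ℕ × ℕ) × Bool =>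
      count m ev q.1.1 q.1.2.1 q.1.2.2 q.2 := by
    refine Primrec.list_foldl (h := fun (q : (List Bool × ℕ × ℕ) × Bool) (c : ℕ × ℕ) =>
      bif votesFor m ev q.1.1 q.1.2.1 q.1.2.2 q.2 c.2 then c.1 + 1 else c.1)
      (Primrec.list_range.comp (hpw.comp Primrec.fst)) (Primrec.const 0) ?_
    exact (Primrec.cond (hfor.comp (Primrec.pair Primrec.fst (Primrec.snd.comp Primrec.snd)))
      (Primrec.succ.comp (Primrec.fst.comp Primrec.snd)) (Primrec.fst.comp Primrec.snd)).to₂
  refine Primrec.cond (Primrec.nat_lt.decide.comp hpw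
      (Primrec.nat_mul.comp (Primrec.const 2)
        (hcount.comp (Primrec.pair Primrec.id (Primrec.const true)))))
    (Primrec.const (some true)) ?_
  exact Primrec.cond (Primrec.nat_lt.decide.comp hpw
      (Primrec.nat_mul.comp (Primrec.const 2)
        (hcount.comp (Primrec.pair Primrec.id (Primrec.const false)))))
    (Primrec.const (some false)) (Primrec.const none)

end P327
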